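import Vale.Agent.P106.W812.VolG

/-! # P106 / W812 : [VOL] and `Bes → KTn` (helper812) -/

open MeasureTheory Set
open Vale.Agent.P122.C2 (Z2 fw fn par kids Cap)
open Vale.Agent.P106.AN
open Vale.Agent.P106.W (s0 tl Amp Cbx InB hh KTop StCORE ry rz)
open Vale.Agent.P106.W301 (E3 hp Pk Bes)
open scoped ENNReal FourierTransform

set_option linter.all false

namespace Vale.Agent.P106.W.Vol

theorem hh_le {n h K : ℕ} (hhK : h ≤ K) : hh n h K ≤ (1 / 2 : ℝ) ^ (K * n) := by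
  unfold hh
  rw [div_le_iff₀ (by positivity), one_div, inv_pow]
  have e : (2:ℝ) ^ (2 * K * n) = 2 ^ (K * n) * 2 ^ (K * n) := by rw [← pow_add]; congr 1; ring
  rw [e, ← mul_assoc, inv_mul_cancel₀ (by positivity), one_mul]
  exact pow_le_pow_right₀ (by norm_num) (Nat.mul_le_mul_right _ hhK)

/-- **[VOL]** volume of the slice of the enlarged planks of a conformal box on the data hyperplane -/
theorem stVOL (K h : ℕ) (C1 : ℝ) (hhK : h ≤ K) (hC : 1 ≤ C1) : ∃ C : ℝ, 0 ≤ C ∧ ∀ (n : ℕ) (B : Cbx) (U : Finset Nd),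
    B.ok (1 / 8) ((1 / 2 : ℝ) ^ (K * n)) (hh n h K) →
    (∀ S ∈ U, InB n h K B S ∧ S.b.T = 0 ∧ Cap n K S.b.τ ∧ (∀ k, |(S.b.o k : ℝ)| ≤ C1 * 2 ^ (K * n)) ∧
      |(S.w : ℝ)| * 2 ^ (h * n) ≤ C1 * 2 ^ (2 * K * n)) →
    volume {y : E3 | ∃ S ∈ U, (toPk S).g0 (h * n) K n (hp y) ≤ 2 ^ n} ≤
      ENNReal.ofReal (C * 2 ^ (8 * n) * (2 ^ (2 * K * n)) ^ 3 * (B.u1 * B.u2 * max (B.u2 ^ 2) (hh n h K))) := by
  refine ⟨43 ^ 5 * 2304 * (4 * C1) ^ 8, by positivity, ?_⟩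
  intro n B U hB hU
  set R : ℝ := 2 ^ (2 * K * n) with hR
  have hR0 : 0 < R := by positivity
  have hr0 : (0:ℝ) < (1 / 2 : ℝ) ^ (K * n) := by positivity
  have hH0 : 0 ≤ hh n h K := by unfold hh; positivity
  set T : Set (Fin 3 → ℝ) := {P | ∃ l ∈ {l : RP | ∃ S ∈ U, l = toRP n h K S},
    Near (4 * C1 * 2 ^ n) ((1 / 2 : ℝ) ^ (K * n)) (hh n h K) l (P 2) (P 0) (P 1) (-(P 2) / 32)} with hT
  have sub : {y : E3 | ∃ S ∈ U, (toPk S).g0 (h * n) K n (hp y) ≤ 2 ^ n} ⊆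
      (MeasurableEquiv.toLp 2 (Fin 3 → ℝ)).symm ⁻¹' ((R⁻¹ • ·) ⁻¹' T) := by
    rintro y ⟨S, hS, hy⟩
    obtain ⟨h1, h2, h3, h4, h5⟩ := hU S hS
    have nr := near_of hC hhK h2 h3 h4 h5 hy
    refine ⟨toRP n h K S, ⟨S, hS, rfl⟩, ?_⟩
    simp only [div_eq_inv_mul (y 0), div_eq_inv_mul (y 1), div_eq_inv_mul (y 2)] at nr
    exact nr
  have hq : 1 ≤ 4 * C1 * 2 ^ n := by
    have : (1:ℝ) ≤ 2 ^ n := one_le_pow₀ (by norm_num)
    nlinarith
  have hv := vol_all (B := toBP B) hq (toBP_ok hB hr0 hH0) (hh_le hhK) {l : RP | ∃ S ∈ U, l = toRP n h K S} (by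
    rintro l ⟨S, hS, rfl⟩
    obtain ⟨h1, h2, h3, h4, h5⟩ := hU S hS
    have hs : ∀ k, |s0 n K S.b.τ k| ≤ 1 := by
      intro k
      have hk := h3 k
      have hQ0 : (0:ℝ) < 2 ^ (K * n) := by positivity
      unfold s0
      rw [abs_div, abs_of_pos (a := (2:ℝ) ^ (K * n)) hQ0, div_le_one hQ0, abs_of_nonneg (by exact_mod_cast hk.1)]
      have : ((S.b.τ k : ℤ) : ℝ) < ((2 ^ (K * n) : ℤ) : ℝ) := by exact_mod_cast hk.2
      push_cast at this
      exact this.le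
    exact ⟨toRP_in h1, hs 0, hs 1⟩)
  calc volume {y : E3 | ∃ S ∈ U, (toPk S).g0 (h * n) K n (hp y) ≤ 2 ^ n}
      ≤ volume ((MeasurableEquiv.toLp 2 (Fin 3 → ℝ)).symm ⁻¹' ((R⁻¹ • ·) ⁻¹' T)) := measure_mono sub
    _ = volume ((R⁻¹ • ·) ⁻¹' T) :=
        (EuclideanSpace.volume_preserving_symm_measurableEquiv_toLp (Fin 3)).measure_preimage_equiv _
    _ = ENNReal.ofReal (R ^ 3) * volume T := by
        rw [Measure.addHaar_preimage_smul _ (inv_ne_zero hR0.ne')]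
        congr 2
        simp only [Module.finrank_fin_fun]
        rw [inv_pow, inv_inv, abs_of_pos (by positivity)]
    _ ≤ ENNReal.ofReal (R ^ 3) * ENNReal.ofReal (43 ^ 5 * 2304 * (4 * C1 * 2 ^ n) ^ 8 * (B.u1 * B.u2 * max (B.u2 ^ 2) (hh n h K))) := by
        gcongr
        exact hv
    _ = _ := by
        rw [← ENNReal.ofReal_mul (by positivity)]
        congr 1
        have e8 : ((2:ℝ) ^ n) ^ 8 = 2 ^ (8 * n) := by rw [← pow_mul, mul_comm]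
        rw [mul_pow (4 * C1), e8]
        ring

theorem desc_K (K n : ℕ) (τ : Z2) : desc K n K τ = {τ} := by
  unfold desc
  ext x
  simp only [Nat.sub_self, zero_mul, pow_zero, one_mul, Fintype.mem_piFinset, Finset.mem_Ico, Finset.mem_singleton]
  constructor
  · intro h
    funext k
    have := h k
    omega
  · rintro rfl k
    exact ⟨le_rfl, by omega⟩

theorem am2_en {M h n K : ℕ} {g : Z2 → E4 → ℂ} {S : Nd} (hT : S.b.T = 0) :
    am2 M h n K S (pie K n g K S.b.τ) = ENNReal.ofReal (((2:ℝ) ^ (h * n + 4 * K * n))⁻¹) * (toPk S).en M (h * n) K n g := by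
  unfold am2 Pk.en wN wg bp pie Pk.gg toPk
  rw [desc_K, hT]
  simp only [Finset.sum_singleton, Int.cast_zero, mul_zero]
  rfl

theorem toPk_inj {U : Finset Nd} (hU : ∀ S ∈ U, S.b.T = 0) : Set.InjOn toPk U := by
  intro S hS S' hS' h
  have h0 := hU S hS
  have h1 := hU S' hS'
  simp only [toPk, Pk.mk.injEq] at h
  obtain ⟨a, b, c⟩ := h
  ext1
  · ext1
    · exact a
    · exact b
    · rw [h0, h1]
  · exact c

/-- the Katz-Tao condition for conformal boxes follows from the position dependent Bessel inequality -/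
theorem ktn_of_bes (K h : ℕ) (C1 : ℝ) (hhK : h ≤ K) (hC : 1 ≤ C1) : ∃ C : ℝ, 0 ≤ C ∧ ∀ (M n : ℕ) (g : Z2 → E4 → ℂ) (Λ : ℝ),
    0 ≤ Λ → Bes M (h * n) K n g Λ → KTn (1 / 8) C1 M h K n g (C * 2 ^ (8 * n) * Λ) := by
  obtain ⟨C, hC0, hV⟩ := stVOL K h C1 hhK hC
  refine ⟨C, hC0, ?_⟩
  intro M n g Λ hΛ hb B U hB hU
  have hv := hV n B U hB hU
  have hT : ∀ S ∈ U, S.b.T = 0 := fun S hS => (hU S hS).2.1
  have hu1 : 0 ≤ B.u1 := le_trans (by positivity) hB.r1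
  have hu2 : 0 ≤ B.u2 := hu1.trans hB.u12
  have hH0 : 0 < hh n h K := by unfold hh; positivity
  have hmx : 0 ≤ max (B.u2 ^ 2) (hh n h K) := le_max_of_le_right hH0.le
  have hb' := hb (U.image toPk)
  rw [Finset.sum_image (toPk_inj hT)] at hb'
  have es : {y : E3 | ∃ S ∈ U.image toPk, S.g0 (h * n) K n (hp y) ≤ 2 ^ n} = {y : E3 | ∃ S ∈ U, (toPk S).g0 (h * n) K n (hp y) ≤ 2 ^ n} := by
    ext y
    simp only [mem_setOf_eq, Finset.mem_image]
    constructor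
    · rintro ⟨_, ⟨S, hS, rfl⟩, h⟩; exact ⟨S, hS, h⟩
    · rintro ⟨S, hS, h⟩; exact ⟨_, ⟨S, hS, rfl⟩, h⟩
  rw [es] at hb'
  calc ∑ S ∈ U, am2 M h n K S (pie K n g K S.b.τ)
      = ENNReal.ofReal (((2:ℝ) ^ (h * n + 4 * K * n))⁻¹) * ∑ S ∈ U, (toPk S).en M (h * n) K n g := by
        rw [Finset.mul_sum]
        exact Finset.sum_congr rfl fun S hS => am2_en (hT S hS)
    _ ≤ ENNReal.ofReal (((2:ℝ) ^ (h * n + 4 * K * n))⁻¹) * (ENNReal.ofReal (Λ * 2 ^ (2 * K * n)) *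
        ENNReal.ofReal (C * 2 ^ (8 * n) * (2 ^ (2 * K * n)) ^ 3 * (B.u1 * B.u2 * max (B.u2 ^ 2) (hh n h K)))) := by
        gcongr
        exact hb'.trans (mul_le_mul' le_rfl hv)
    _ = _ := by
        rw [← ENNReal.ofReal_mul (by positivity), ← ENNReal.ofReal_mul (by positivity)]
        congr 1
        unfold Cbx.vol
        have e1 : max 1 (B.u2 ^ 2 / hh n h K) = max (B.u2 ^ 2) (hh n h K) / hh n h K := by
          rw [← max_div_div_right hH0.le, div_self hH0.ne', max_comm]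
        rw [e1]
        unfold hh
        have e2 : (2:ℝ) ^ (2 * K * n) = (2 ^ (K * n)) ^ 2 := by rw [← pow_mul]; congr 1; ring
        have e3 : (2:ℝ) ^ (h * n + 4 * K * n) = 2 ^ (h * n) * (2 ^ (K * n)) ^ 4 := by rw [pow_add, ← pow_mul]; congr 2; ring
        rw [e2, e3, one_div, inv_pow]
        field_simp

end Vale.Agent.P106.W.Vol
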