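import Mathlib

/-! # P106 / wave side : [BES] position-dependent Bessel inequality, abstract form (helper812)

`K τ x y` are the kernels of the operators `f ↦ f_τ` (at a fixed time), `A τ` the set where `f_τ` is measured,
`G` contains all points `y` from which `K τ` reaches `A τ`. -/

open MeasureTheory Set
open scoped ENNReal NNReal

set_option linter.all false

namespace Vale.Agent.P106.BES

variable {T X Y : Type*} [Fintype T] [MeasurableSpace X] [MeasurableSpace Y] {μ : Measure X} {ν : Measure Y}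

/-- position-dependent Bessel inequality -/
theorem bes {K : T → X → Y → ℂ} {B δ : ℝ≥0∞} {f : Y → ℂ} (hf : Measurable f) (hf1 : ∀ y, ‖f y‖ ≤ 1)
    {A : T → Set X} (mA : ∀ τ, MeasurableSet (A τ)) {G : Set Y} (mG : MeasurableSet G)
    (hI : ∀ τ x, x ∈ A τ → Integrable (K τ x) ν)
    (hL2 : ∑ τ, ∫⁻ x, ‖∫ y, K τ x y * G.indicator f y ∂ν‖ₑ ^ 2 ∂μ ≤ B * ν G)
    (hdec : ∀ τ x, x ∈ A τ → ∫⁻ y in Gᶜ, ‖K τ x y‖ₑ ∂ν ≤ δ) :
    ∑ τ, ∫⁻ x in A τ, ‖∫ y, K τ x y * f y ∂ν‖ₑ ^ 2 ∂μ ≤ 2 * (B * ν G) + 2 * (δ ^ 2 * ∑ τ, μ (A τ)) := by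
  have key : ∀ τ x, x ∈ A τ → ‖∫ y, K τ x y * f y ∂ν‖ₑ ^ 2 ≤ 2 * ‖∫ y, K τ x y * G.indicator f y ∂ν‖ₑ ^ 2 + 2 * δ ^ 2 := by
    intro τ x hx
    have hKf : Integrable (fun y => K τ x y * f y) ν := by
      have := (hI τ x hx).bdd_mul (c := 1) hf.aestronglyMeasurable (Filter.Eventually.of_forall hf1)
      simpa only [mul_comm] using this
    have e : ∫ y, K τ x y * f y ∂ν = (∫ y, K τ x y * G.indicator f y ∂ν) + ∫ y, K τ x y * Gᶜ.indicator f y ∂ν := by
      rw [← integral_add]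
      · refine integral_congr_ae (Filter.Eventually.of_forall fun y => ?_)
        show K τ x y * f y = K τ x y * G.indicator f y + K τ x y * Gᶜ.indicator f y
        rw [← mul_add, ← Pi.add_apply (G.indicator f), Set.indicator_self_add_compl]
      · have : (fun y => K τ x y * G.indicator f y) = G.indicator (fun y => K τ x y * f y) := by
          ext y; by_cases h : y ∈ G <;> simp [h]
        rw [this]; exact hKf.indicator mG
      · have : (fun y => K τ x y * Gᶜ.indicator f y) = Gᶜ.indicator (fun y => K τ x y * f y) := by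
          ext y; by_cases h : y ∈ G <;> simp [h]
        rw [this]; exact hKf.indicator mG.compl
    have h2 : ‖∫ y, K τ x y * Gᶜ.indicator f y ∂ν‖ₑ ≤ δ := by
      refine (enorm_integral_le_lintegral_enorm _).trans (le_trans ?_ (hdec τ x hx))
      rw [← lintegral_indicator mG.compl]
      refine lintegral_mono fun y => ?_
      by_cases h : y ∈ Gᶜ
      · simp only [Set.indicator_of_mem h]
        rw [enorm_mul]
        calc ‖K τ x y‖ₑ * ‖f y‖ₑ ≤ ‖K τ x y‖ₑ * 1 := by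
              gcongr
              rw [← ofReal_norm_eq_enorm]
              exact ENNReal.ofReal_le_one.2 (hf1 y)
          _ = _ := mul_one _
      · simp [Set.indicator_of_notMem h]
    rw [e]
    calc ‖(∫ y, K τ x y * G.indicator f y ∂ν) + ∫ y, K τ x y * Gᶜ.indicator f y ∂ν‖ₑ ^ 2
        ≤ (‖∫ y, K τ x y * G.indicator f y ∂ν‖ₑ + δ) ^ 2 := by
          gcongr
          exact (enorm_add_le _ _).trans (add_le_add le_rfl h2)
      _ ≤ 2 * ‖∫ y, K τ x y * G.indicator f y ∂ν‖ₑ ^ 2 + 2 * δ ^ 2 := by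
          have h := ENNReal.rpow_add_le_mul_rpow_add_rpow ‖∫ y, K τ x y * G.indicator f y ∂ν‖ₑ δ (p := 2) (by norm_num)
          rw [show ((2:ℝ) - 1) = 1 by norm_num, ENNReal.rpow_one, mul_add] at h
          simpa only [ENNReal.rpow_two] using h
  calc ∑ τ, ∫⁻ x in A τ, ‖∫ y, K τ x y * f y ∂ν‖ₑ ^ 2 ∂μ
      ≤ ∑ τ, ((2 * ∫⁻ x, ‖∫ y, K τ x y * G.indicator f y ∂ν‖ₑ ^ 2 ∂μ) + 2 * δ ^ 2 * μ (A τ)) := by
        refine Finset.sum_le_sum fun τ _ => ?_
        calc ∫⁻ x in A τ, ‖∫ y, K τ x y * f y ∂ν‖ₑ ^ 2 ∂μ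
            ≤ ∫⁻ x in A τ, (2 * ‖∫ y, K τ x y * G.indicator f y ∂ν‖ₑ ^ 2 + 2 * δ ^ 2) ∂μ :=
              setLIntegral_mono' (mA τ) fun x hx => key τ x hx
          _ = (∫⁻ x in A τ, 2 * ‖∫ y, K τ x y * G.indicator f y ∂ν‖ₑ ^ 2 ∂μ) + 2 * δ ^ 2 * μ (A τ) := by
              rw [lintegral_add_right _ measurable_const, setLIntegral_const]
          _ ≤ _ := by
              refine add_le_add ?_ le_rfl
              rw [lintegral_const_mul' _ _ (by norm_num)]
              gcongr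
              exact Measure.restrict_le_self
    _ = 2 * (∑ τ, ∫⁻ x, ‖∫ y, K τ x y * G.indicator f y ∂ν‖ₑ ^ 2 ∂μ) + 2 * (δ ^ 2 * ∑ τ, μ (A τ)) := by
        rw [Finset.sum_add_distrib, ← Finset.mul_sum, ← Finset.mul_sum, mul_assoc]
    _ ≤ _ := by gcongr

end Vale.Agent.P106.BES
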