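import Mathlib

/-! # P106 / W812 : volume of the slice of a conformal box on a transversal hyperplane, algebra (helper812)

Rays `(y, s, z)` : `x = y + t s`, adapted coordinate `u - x·s + t |s|²/2 = z`.  Conformal slab function centred at the ray
`(p, v, ω)` : `G = N + κ ζ + α (2 t ζ - |X|²)`. -/

set_option linter.all false

namespace Vale.Agent.P106.W.Vol

/-- the slab function at the point `(u, x0, x1, t)` -/
noncomputable def GP (a b κ α p0 p1 v0 v1 ω u x0 x1 t : ℝ) : ℝ :=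
  a * (x0 - p0 - t * v0) + b * (x1 - p1 - t * v1) +
    κ * (u - x0 * v0 - x1 * v1 + t * (v0 ^ 2 + v1 ^ 2) / 2 - ω) +
    α * (2 * t * (u - x0 * v0 - x1 * v1 + t * (v0 ^ 2 + v1 ^ 2) / 2 - ω) -
      ((x0 - p0 - t * v0) ^ 2 + (x1 - p1 - t * v1) ^ 2))

/-- value on a ray at the time `0` -/
noncomputable def G0 (a b κ α p0 p1 v0 v1 ω y0 y1 s0 s1 z : ℝ) : ℝ :=
  a * (y0 - p0) + b * (y1 - p1) + κ * (z + (y0 * (s0 - v0) + y1 * (s1 - v1)) - ω) - α * ((y0 - p0) ^ 2 + (y1 - p1) ^ 2)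

/-- increment on a ray -/
noncomputable def G1 (a b κ α p0 p1 v0 v1 ω s0 s1 z : ℝ) : ℝ :=
  a * (s0 - v0) + b * (s1 - v1) + κ * ((s0 - v0) ^ 2 + (s1 - v1) ^ 2) / 2 +
    2 * α * (z + (p0 * (s0 - v0) + p1 * (s1 - v1)) - ω)

/-- expansion of the slab function around a ray -/
theorem gid (a b κ α p0 p1 v0 v1 ω y0 y1 s0 s1 z u x0 x1 t : ℝ) :
    GP a b κ α p0 p1 v0 v1 ω u x0 x1 t =
      G0 a b κ α p0 p1 v0 v1 ω y0 y1 s0 s1 z + t * G1 a b κ α p0 p1 v0 v1 ω s0 s1 z +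
      (a + κ * (s0 - v0) - 2 * α * (y0 - p0)) * (x0 - y0 - t * s0) +
      (b + κ * (s1 - v1) - 2 * α * (y1 - p1)) * (x1 - y1 - t * s1) +
      (κ + 2 * α * t) * (u - x0 * s0 - x1 * s1 + t * (s0 ^ 2 + s1 ^ 2) / 2 - z) -
      α * ((x0 - y0 - t * s0) ^ 2 + (x1 - y1 - t * s1) ^ 2) := by
  unfold GP G0 G1; ring

/-- the covector of the slab at a ray of the slab is almost a unit vector -/
theorem nid (a b κ α p0 p1 v0 v1 ω y0 y1 s0 s1 z : ℝ) (h : a ^ 2 + b ^ 2 = 1) :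
    (a + κ * (s0 - v0) - 2 * α * (y0 - p0)) ^ 2 + (b + κ * (s1 - v1) - 2 * α * (y1 - p1)) ^ 2 =
      1 + 2 * κ * G1 a b κ α p0 p1 v0 v1 ω s0 s1 z - 4 * α * G0 a b κ α p0 p1 v0 v1 ω y0 y1 s0 s1 z := by
  unfold G0 G1
  linear_combination h

end Vale.Agent.P106.W.Vol
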