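import Mathlib

/-! # P106 / W812 : measure lemmas for the slices of conformal boxes (helper812) -/

open MeasureTheory Set
open scoped ENNReal

set_option linter.all false

namespace Vale.Agent.P106.W.Vol

/-- sublevel sets of a quadratic function with derivative bounded from below -/
theorem slice {k0 k1 k2 a ε c : ℝ} (ha : 0 ≤ a) (hε : 0 ≤ ε) (hc : 0 < c) (h : c ≤ |k1| - 2 * |k2| * a) :
    volume {x : ℝ | |x| ≤ a ∧ |k0 + k1 * x + k2 * x ^ 2| ≤ ε} ≤ ENNReal.ofReal (4 * ε / c) := by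
  rcases Set.eq_empty_or_nonempty {x : ℝ | |x| ≤ a ∧ |k0 + k1 * x + k2 * x ^ 2| ≤ ε} with he | ⟨y, hy1, hy2⟩
  · rw [he]; simp
  have hsub : {x : ℝ | |x| ≤ a ∧ |k0 + k1 * x + k2 * x ^ 2| ≤ ε} ⊆ Icc (y - 2 * ε / c) (y + 2 * ε / c) := by
    rintro x ⟨hx1, hx2⟩
    have e : (k0 + k1 * x + k2 * x ^ 2) - (k0 + k1 * y + k2 * y ^ 2) = (x - y) * (k1 + k2 * (x + y)) := by ring
    have h1 : |(x - y) * (k1 + k2 * (x + y))| ≤ 2 * ε := by
      rw [← e]
      exact (abs_sub _ _).trans (by linarith)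
    have h2 : c ≤ |k1 + k2 * (x + y)| := by
      have g1 : |k1| ≤ |k1 + k2 * (x + y)| + |k2 * (x + y)| := by
        have := abs_sub (k1 + k2 * (x + y)) (k2 * (x + y))
        rwa [add_sub_cancel_right] at this
      have g2 : |k2 * (x + y)| ≤ 2 * |k2| * a := by
        rw [abs_mul]
        have : |x + y| ≤ 2 * a := (abs_add_le _ _).trans (by linarith)
        nlinarith [abs_nonneg k2]
      linarith
    rw [abs_mul] at h1
    have h3 : |x - y| ≤ 2 * ε / c := by
      rw [le_div_iff₀ hc]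
      exact (mul_le_mul_of_nonneg_left h2 (abs_nonneg _)).trans h1
    have := abs_le.1 h3
    exact ⟨by linarith, by linarith⟩
  refine (measure_mono hsub).trans ?_
  rw [Real.volume_Icc]
  refine ENNReal.ofReal_le_ofReal (le_of_eq ?_)
  ring

/-- Fubini along the coordinate `i` -/
theorem vol_slice (i : Fin 3) {S : Set (Fin 3 → ℝ)} (hS : MeasurableSet S) {A : Set (Fin 2 → ℝ)} (hA : MeasurableSet A) {c : ℝ≥0∞}
    (h : ∀ w : Fin 2 → ℝ, volume {x : ℝ | i.insertNth x w ∈ S} ≤ c)
    (h0 : ∀ w x, i.insertNth x w ∈ S → w ∈ A) : volume S ≤ c * volume A := by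
  have mp := volume_preserving_piFinSuccAbove (fun _ : Fin 3 => ℝ) i
  have e1 : volume S = volume ((MeasurableEquiv.piFinSuccAbove (fun _ : Fin 3 => ℝ) i).symm ⁻¹' S) := by
    rw [(mp.symm _).measure_preimage hS.nullMeasurableSet]
  rw [e1]
  have mS : MeasurableSet ((MeasurableEquiv.piFinSuccAbove (fun _ : Fin 3 => ℝ) i).symm ⁻¹' S) :=
    (MeasurableEquiv.measurable _) hS
  show (Measure.prod volume volume) ((MeasurableEquiv.piFinSuccAbove (fun _ : Fin 3 => ℝ) i).symm ⁻¹' S) ≤ _
  rw [Measure.prod_apply_symm mS]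
  calc ∫⁻ w, volume ((fun x => (x, w)) ⁻¹' ((MeasurableEquiv.piFinSuccAbove (fun _ : Fin 3 => ℝ) i).symm ⁻¹' S))
      ≤ ∫⁻ w, A.indicator (fun _ => c) w := by
        refine lintegral_mono fun w => ?_
        by_cases hw : w ∈ A
        · rw [Set.indicator_of_mem hw]
          exact h w
        · rw [Set.indicator_of_notMem hw]
          refine le_of_eq ?_
          rw [← measure_empty (μ := (volume : Measure ℝ))]
          congr 1
          ext x
          simp only [mem_preimage, mem_empty_iff_false, iff_false]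
          intro hx
          exact hw (h0 w x hx)
    _ = c * volume A := by
        rw [lintegral_indicator hA, setLIntegral_const]

/-- affine preimages -/
theorem vol_aff {M : Matrix (Fin 3) (Fin 3) ℝ} {d : ℝ} (hd : 0 < d) (hM : d ≤ |M.det|) (b : Fin 3 → ℝ) {S : Set (Fin 3 → ℝ)}
    (hS : MeasurableSet S) : volume ((fun P => M.mulVec P + b) ⁻¹' S) ≤ ENNReal.ofReal d⁻¹ * volume S := by
  have hdet : M.det ≠ 0 := by
    intro h; rw [h, abs_zero] at hM; linarith
  have e := Real.map_matrix_volume_pi_eq_smul_volume_pi hdet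
  have hmeas : Measurable (Matrix.toLin' M) := (LinearMap.continuous_of_finiteDimensional _).measurable
  have e2 : ((fun P => M.mulVec P + b) ⁻¹' S) = (Matrix.toLin' M) ⁻¹' ((fun Q => Q + b) ⁻¹' S) := by
    ext P; simp [Matrix.toLin'_apply]
  have mS' : MeasurableSet ((fun Q : Fin 3 → ℝ => Q + b) ⁻¹' S) := (measurable_id.add_const b) hS
  rw [e2, ← Measure.map_apply hmeas mS', e]
  simp only [Measure.smul_apply, smul_eq_mul]
  rw [measure_preimage_add_right]
  refine mul_le_mul' (ENNReal.ofReal_le_ofReal ?_) le_rfl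
  rw [abs_inv]
  exact inv_anti₀ hd hM

end Vale.Agent.P106.W.Vol
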