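import Vale.Agent.P106.W812.VolA
import Vale.Agent.P106.W812.VolB

/-! # P106 / W812 : the volume of the recentred slab (helper812) -/

open MeasureTheory Set
open scoped ENNReal

set_option linter.all false

namespace Vale.Agent.P106.W.Vol

theorem volA {a1 a2 : ℝ} (h1 : 0 ≤ a1) (h2 : 0 ≤ a2) :
    volume {w : Fin 2 → ℝ | |w 0| ≤ a1 ∧ |w 1| ≤ a2} = ENNReal.ofReal (2 * a1) * ENNReal.ofReal (2 * a2) := by
  have e : {w : Fin 2 → ℝ | |w 0| ≤ a1 ∧ |w 1| ≤ a2} = Set.pi univ ![Icc (-a1) a1, Icc (-a2) a2] := by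
    ext w
    simp only [mem_setOf_eq, Set.mem_pi, mem_univ, forall_true_left, Fin.forall_fin_two, Matrix.cons_val_zero, Matrix.cons_val_one,
      mem_Icc, abs_le]
  rw [e, volume_pi_pi, Fin.prod_univ_two]
  simp only [Matrix.cons_val_zero, Matrix.cons_val_one, Real.volume_Icc]
  congr 2 <;> ring

theorem mA {a1 a2 : ℝ} : MeasurableSet {w : Fin 2 → ℝ | |w 0| ≤ a1 ∧ |w 1| ≤ a2} := by
  refine IsClosed.measurableSet ?_
  refine IsClosed.inter (s₁ := {w : Fin 2 → ℝ | |w 0| ≤ a1}) (s₂ := {w : Fin 2 → ℝ | |w 1| ≤ a2}) ?_ ?_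
  · exact isClosed_le (by fun_prop) continuous_const
  · exact isClosed_le (by fun_prop) continuous_const

/-- the recentred slab -/
def SS (n0 n1 κ α t0 τ0 τ1 τ2 a1 a2 ε : ℝ) : Set (Fin 3 → ℝ) :=
  {X | |X 0| ≤ a1 ∧ |X 1| ≤ a1 ∧ |X 2| ≤ a2 ∧
    |n0 * X 0 + n1 * X 1 + (κ + 2 * α * (t0 + τ0 * X 0 + τ1 * X 1 + τ2 * X 2)) * X 2 - α * (X 0 ^ 2 + X 1 ^ 2)| ≤ ε}

theorem mSS (n0 n1 κ α t0 τ0 τ1 τ2 a1 a2 ε : ℝ) : MeasurableSet (SS n0 n1 κ α t0 τ0 τ1 τ2 a1 a2 ε) := by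
  refine IsClosed.measurableSet ?_
  refine IsClosed.inter (s₁ := {X : Fin 3 → ℝ | |X 0| ≤ a1}) (isClosed_le (by fun_prop) continuous_const) ?_
  refine IsClosed.inter (s₁ := {X : Fin 3 → ℝ | |X 1| ≤ a1}) (isClosed_le (by fun_prop) continuous_const) ?_
  refine IsClosed.inter (s₁ := {X : Fin 3 → ℝ | |X 2| ≤ a2}) (isClosed_le (by fun_prop) continuous_const) ?_
  have hc : Continuous fun X : Fin 3 → ℝ =>
      |n0 * X 0 + n1 * X 1 + (κ + 2 * α * (t0 + τ0 * X 0 + τ1 * X 1 + τ2 * X 2)) * X 2 - α * (X 0 ^ 2 + X 1 ^ 2)| := by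
    fun_prop
  exact isClosed_le hc continuous_const

theorem ins0 (x : ℝ) (w : Fin 2 → ℝ) : ((0 : Fin 3).insertNth x w : Fin 3 → ℝ) 0 = x ∧
    ((0 : Fin 3).insertNth x w : Fin 3 → ℝ) 1 = w 0 ∧ ((0 : Fin 3).insertNth x w : Fin 3 → ℝ) 2 = w 1 := ⟨rfl, rfl, rfl⟩

theorem ins1 (x : ℝ) (w : Fin 2 → ℝ) : ((1 : Fin 3).insertNth x w : Fin 3 → ℝ) 0 = w 0 ∧
    ((1 : Fin 3).insertNth x w : Fin 3 → ℝ) 1 = x ∧ ((1 : Fin 3).insertNth x w : Fin 3 → ℝ) 2 = w 1 := ⟨rfl, rfl, rfl⟩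

theorem third {n : ℝ} (h : 1 / 8 ≤ n ^ 2) : 1 / 3 ≤ |n| := by
  by_contra hc
  push Not at hc
  have : n ^ 2 < 1 / 8 := by
    rw [← sq_abs]; nlinarith [abs_nonneg n]
  linarith

theorem volS {n0 n1 κ α t0 τ0 τ1 τ2 a1 a2 ε T : ℝ} (h1 : 0 ≤ a1) (h2 : 0 ≤ a2) (hε : 0 ≤ ε) (hn : 1 / 4 ≤ n0 ^ 2 + n1 ^ 2)
    (hT0 : |τ0| ≤ T) (hT1 : |τ1| ≤ T) (h : 2 * |α| * a1 + 2 * |α| * (T * a2) ≤ 1 / 6) :
    volume (SS n0 n1 κ α t0 τ0 τ1 τ2 a1 a2 ε) ≤
      ENNReal.ofReal (24 * ε) * (ENNReal.ofReal (2 * a1) * ENNReal.ofReal (2 * a2)) := by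
  have hε2 : 4 * ε / (1 / 6) = 24 * ε := by ring
  have tb : ∀ (τ y : ℝ), |τ| ≤ T → |y| ≤ a2 → |2 * α * τ * y| ≤ 2 * |α| * (T * a2) := by
    intro τ y hτ hy
    have hTn : 0 ≤ T := (abs_nonneg _).trans hτ
    calc |2 * α * τ * y| = 2 * |α| * (|τ| * |y|) := by rw [abs_mul, abs_mul, abs_mul, abs_two]; ring
      _ ≤ _ := by gcongr
  rcases le_or_gt (1 / 8) (n0 ^ 2) with hc | hc
  · rw [← volA h1 h2, ← hε2]
    refine vol_slice 0 (mSS _ _ _ _ _ _ _ _ _ _ _) mA (fun w => ?_) (fun w x hx => ?_)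
    · by_cases hw : |w 1| ≤ a2
      · have hk : 1 / 6 ≤ |n0 + 2 * α * τ0 * w 1| - 2 * |-α| * a1 := by
          rw [abs_neg]
          have g1 := third hc
          have g2 : |n0| ≤ |n0 + 2 * α * τ0 * w 1| + |2 * α * τ0 * w 1| := by
            have := abs_sub (n0 + 2 * α * τ0 * w 1) (2 * α * τ0 * w 1)
            rwa [add_sub_cancel_right] at this
          have g3 := tb τ0 (w 1) hT0 hw
          linarith
        refine le_trans (measure_mono ?_) (slice (k0 := n1 * w 0 + (κ + 2 * α * (t0 + τ1 * w 0 + τ2 * w 1)) * w 1 - α * w 0 ^ 2)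
          (k1 := n0 + 2 * α * τ0 * w 1) (k2 := -α) (a := a1) (ε := ε) (c := 1/6) h1 hε (by norm_num) hk)
        intro x hx
        obtain ⟨i0, i1, i2⟩ := ins0 x w
        obtain ⟨e1, e2, e3, e4⟩ := hx
        rw [i0] at e1
        rw [i0, i1, i2] at e4
        refine ⟨e1, ?_⟩
        convert e4 using 2
        ring
      · have : {x : ℝ | ((0 : Fin 3).insertNth x w : Fin 3 → ℝ) ∈ SS n0 n1 κ α t0 τ0 τ1 τ2 a1 a2 ε} = ∅ := by
          ext x
          simp only [mem_setOf_eq, mem_empty_iff_false, iff_false]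
          intro hx
          obtain ⟨i0, i1, i2⟩ := ins0 x w
          have := hx.2.2.1
          rw [i2] at this
          exact hw this
        rw [this]; simp
    · obtain ⟨i0, i1, i2⟩ := ins0 x w
      have e2 := hx.2.1
      have e3 := hx.2.2.1
      rw [i1] at e2; rw [i2] at e3
      exact ⟨e2, e3⟩
  · have hc' : 1 / 8 ≤ n1 ^ 2 := by linarith
    rw [← volA h1 h2, ← hε2]
    refine vol_slice 1 (mSS _ _ _ _ _ _ _ _ _ _ _) mA (fun w => ?_) (fun w x hx => ?_)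
    · by_cases hw : |w 1| ≤ a2
      · have hk : 1 / 6 ≤ |n1 + 2 * α * τ1 * w 1| - 2 * |-α| * a1 := by
          rw [abs_neg]
          have g1 := third hc'
          have g2 : |n1| ≤ |n1 + 2 * α * τ1 * w 1| + |2 * α * τ1 * w 1| := by
            have := abs_sub (n1 + 2 * α * τ1 * w 1) (2 * α * τ1 * w 1)
            rwa [add_sub_cancel_right] at this
          have g3 := tb τ1 (w 1) hT1 hw
          linarith
        refine le_trans (measure_mono ?_) (slice (k0 := n0 * w 0 + (κ + 2 * α * (t0 + τ0 * w 0 + τ2 * w 1)) * w 1 - α * w 0 ^ 2)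
          (k1 := n1 + 2 * α * τ1 * w 1) (k2 := -α) (a := a1) (ε := ε) (c := 1/6) h1 hε (by norm_num) hk)
        intro x hx
        obtain ⟨i0, i1, i2⟩ := ins1 x w
        obtain ⟨e1, e2, e3, e4⟩ := hx
        rw [i1] at e2
        rw [i0, i1, i2] at e4
        refine ⟨e2, ?_⟩
        convert e4 using 2
        ring
      · have : {x : ℝ | ((1 : Fin 3).insertNth x w : Fin 3 → ℝ) ∈ SS n0 n1 κ α t0 τ0 τ1 τ2 a1 a2 ε} = ∅ := by
          ext x
          simp only [mem_setOf_eq, mem_empty_iff_false, iff_false]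
          intro hx
          obtain ⟨i0, i1, i2⟩ := ins1 x w
          have := hx.2.2.1
          rw [i2] at this
          exact hw this
        rw [this]; simp
    · obtain ⟨i0, i1, i2⟩ := ins1 x w
      have e2 := hx.1
      have e3 := hx.2.2.1
      rw [i0] at e2; rw [i2] at e3
      exact ⟨e2, e3⟩

/-- trivial bound -/
theorem volS' {n0 n1 κ α t0 τ0 τ1 τ2 a1 a2 ε : ℝ} (h1 : 0 ≤ a1) (h2 : 0 ≤ a2) :
    volume (SS n0 n1 κ α t0 τ0 τ1 τ2 a1 a2 ε) ≤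
      ENNReal.ofReal (2 * a1) * (ENNReal.ofReal (2 * a1) * ENNReal.ofReal (2 * a2)) := by
  rw [← volA h1 h2]
  refine vol_slice 0 (mSS _ _ _ _ _ _ _ _ _ _ _) mA (fun w => ?_) (fun w x hx => ?_)
  · have : {x : ℝ | ((0 : Fin 3).insertNth x w : Fin 3 → ℝ) ∈ SS n0 n1 κ α t0 τ0 τ1 τ2 a1 a2 ε} ⊆ Icc (-a1) a1 := by
      intro x hx
      obtain ⟨i0, i1, i2⟩ := ins0 x w
      have e1 := hx.1
      rw [i0] at e1
      exact abs_le.1 e1
    refine (measure_mono this).trans ?_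
    rw [Real.volume_Icc]
    exact ENNReal.ofReal_le_ofReal (by linarith)
  · obtain ⟨i0, i1, i2⟩ := ins0 x w
    have e2 := hx.2.1
    have e3 := hx.2.2.1
    rw [i1] at e2; rw [i2] at e3
    exact ⟨e2, e3⟩

end Vale.Agent.P106.W.Vol
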