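import Vale.Agent.P106.W812.VolC

/-! # P106 / W812 : the real inequalities of a class of rays (helper812) -/

set_option linter.all false

namespace Vale.Agent.P106.W.Vol

/-- parameters of a box: normal `(a, b)`, curvatures, centre, sizes -/
structure BP where
  a : ℝ
  b : ℝ
  κ : ℝ
  α : ℝ
  p0 : ℝ
  p1 : ℝ
  v0 : ℝ
  v1 : ℝ
  ω : ℝ
  u1 : ℝ
  u2 : ℝ

/-- parameters of a ray -/
structure RP where
  y0 : ℝ
  y1 : ℝ
  s0 : ℝ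
  s1 : ℝ
  z : ℝ

/-- adapted coordinate with respect to the centre -/
noncomputable def RP.ze (l : RP) (B : BP) : ℝ := l.z + (l.y0 * (l.s0 - B.v0) + l.y1 * (l.s1 - B.v1)) - B.ω

noncomputable def RP.g0 (l : RP) (B : BP) : ℝ := G0 B.a B.b B.κ B.α B.p0 B.p1 B.v0 B.v1 B.ω l.y0 l.y1 l.s0 l.s1 l.z

noncomputable def RP.g1 (l : RP) (B : BP) : ℝ := G1 B.a B.b B.κ B.α B.p0 B.p1 B.v0 B.v1 B.ω l.s0 l.s1 l.z

structure RP.In (l : RP) (B : BP) (H : ℝ) : Prop where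
  y0 : |l.y0 - B.p0| ≤ B.u2
  y1 : |l.y1 - B.p1| ≤ B.u2
  s0 : |l.s0 - B.v0| ≤ B.u2
  s1 : |l.s1 - B.v1| ≤ B.u2
  ze : |l.ze B| ≤ max (B.u2 ^ 2) H
  g0 : |l.g0 B| ≤ B.u1
  g1 : |l.g1 B| ≤ B.u1

structure BP.ok (B : BP) (r H : ℝ) : Prop where
  n : B.a ^ 2 + B.b ^ 2 = 1
  r0 : 0 < r
  r1 : r ≤ B.u1
  u12 : B.u1 ≤ B.u2
  u2 : B.u2 ≤ 1
  α : |B.α| * B.u2 ≤ 1 / 8
  κ : |B.κ| * B.u2 ≤ 1 / 8
  H0 : 0 ≤ H
  αH : |B.α| * H ≤ B.u1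
  κH : |B.κ| * H ≤ B.u1

/-- `l` is close to `m` in the box `B` -/
structure Cls (B : BP) (H c : ℝ) (l m : RP) : Prop where
  y0 : |l.y0 - m.y0| ≤ c * B.u2
  y1 : |l.y1 - m.y1| ≤ c * B.u2
  s0 : |l.s0 - m.s0| ≤ c * B.u2
  s1 : |l.s1 - m.s1| ≤ c * B.u2
  ze : |l.ze B - m.ze B| ≤ c * max (B.u2 ^ 2) H

/-- deviations of the point `(u, x0, x1, t)` from the ray -/
noncomputable def RP.e0 (l : RP) (x0 t : ℝ) : ℝ := x0 - l.y0 - t * l.s0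
noncomputable def RP.e1 (l : RP) (x1 t : ℝ) : ℝ := x1 - l.y1 - t * l.s1
noncomputable def RP.e2 (l : RP) (u x0 x1 t : ℝ) : ℝ := u - x0 * l.s0 - x1 * l.s1 + t * (l.s0 ^ 2 + l.s1 ^ 2) / 2 - l.z

/-- the point is in the enlarged plank of the ray -/
structure Near (q r H : ℝ) (l : RP) (u x0 x1 t : ℝ) : Prop where
  e0 : |l.e0 x0 t| ≤ q * r
  e1 : |l.e1 x1 t| ≤ q * r
  e2 : |l.e2 u x0 x1 t| ≤ q * H
  t : |t| ≤ q

variable {B : BP} {r H q c : ℝ} {l m : RP} {u x0 x1 t : ℝ}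

theorem near_e0 (hq : 1 ≤ q) (hB : B.ok r H) (hc : 0 ≤ c) (hcl : Cls B H c l m) (hn : Near q r H l u x0 x1 t) :
    |m.e0 x0 t| ≤ (1 + q) * c * B.u2 + q * r := by
  have e : m.e0 x0 t = (l.y0 - m.y0) + t * (l.s0 - m.s0) + l.e0 x0 t := by unfold RP.e0; ring
  rw [e]
  have h1 : |t * (l.s0 - m.s0)| ≤ q * (c * B.u2) := by
    rw [abs_mul]; exact mul_le_mul hn.t hcl.s0 (abs_nonneg _) (by linarith)
  calc |(l.y0 - m.y0) + t * (l.s0 - m.s0) + l.e0 x0 t| ≤ |l.y0 - m.y0| + |t * (l.s0 - m.s0)| + |l.e0 x0 t| := abs_add_three _ _ _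
    _ ≤ c * B.u2 + q * (c * B.u2) + q * r := add_le_add (add_le_add hcl.y0 h1) hn.e0
    _ = _ := by ring

theorem near_e1 (hq : 1 ≤ q) (hB : B.ok r H) (hc : 0 ≤ c) (hcl : Cls B H c l m) (hn : Near q r H l u x0 x1 t) :
    |m.e1 x1 t| ≤ (1 + q) * c * B.u2 + q * r := by
  have e : m.e1 x1 t = (l.y1 - m.y1) + t * (l.s1 - m.s1) + l.e1 x1 t := by unfold RP.e1; ring
  rw [e]
  have h1 : |t * (l.s1 - m.s1)| ≤ q * (c * B.u2) := by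
    rw [abs_mul]; exact mul_le_mul hn.t hcl.s1 (abs_nonneg _) (by linarith)
  calc |(l.y1 - m.y1) + t * (l.s1 - m.s1) + l.e1 x1 t| ≤ |l.y1 - m.y1| + |t * (l.s1 - m.s1)| + |l.e1 x1 t| := abs_add_three _ _ _
    _ ≤ c * B.u2 + q * (c * B.u2) + q * r := add_le_add (add_le_add hcl.y1 h1) hn.e1
    _ = _ := by ring

theorem near_e2 (hq : 1 ≤ q) (hB : B.ok r H) (hc : 0 ≤ c) (hm : m.In B H) (hcl : Cls B H c l m) (hn : Near q r H l u x0 x1 t) :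
    |m.e2 u x0 x1 t| ≤ 3 * c * max (B.u2 ^ 2) H + q * H + 2 * q * r * c * B.u2 + q * c ^ 2 * B.u2 ^ 2 := by
  have hu2 : 0 ≤ B.u2 := by linarith [hB.r0, hB.r1, hB.u12]
  have e : m.e2 u x0 x1 t = (l.ze B - m.ze B) + (-((l.y0 - m.y0) * (m.s0 - B.v0))) + (-((l.y1 - m.y1) * (m.s1 - B.v1))) +
      l.e2 u x0 x1 t + l.e0 x0 t * (l.s0 - m.s0) + l.e1 x1 t * (l.s1 - m.s1) +
      t * ((l.s0 - m.s0) ^ 2 + (l.s1 - m.s1) ^ 2) / 2 := by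
    unfold RP.e2 RP.ze RP.e0 RP.e1; ring
  have h1 : |(l.y0 - m.y0) * (m.s0 - B.v0)| ≤ c * B.u2 * B.u2 := by
    rw [abs_mul]; exact mul_le_mul hcl.y0 hm.s0 (abs_nonneg _) (by positivity)
  have h2 : |(l.y1 - m.y1) * (m.s1 - B.v1)| ≤ c * B.u2 * B.u2 := by
    rw [abs_mul]; exact mul_le_mul hcl.y1 hm.s1 (abs_nonneg _) (by positivity)
  have hr := hB.r0
  have h3 : |l.e0 x0 t * (l.s0 - m.s0)| ≤ q * r * (c * B.u2) := by
    rw [abs_mul]; exact mul_le_mul hn.e0 hcl.s0 (abs_nonneg _) (by positivity)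
  have h4 : |l.e1 x1 t * (l.s1 - m.s1)| ≤ q * r * (c * B.u2) := by
    rw [abs_mul]; exact mul_le_mul hn.e1 hcl.s1 (abs_nonneg _) (by positivity)
  have h5 : |t * ((l.s0 - m.s0) ^ 2 + (l.s1 - m.s1) ^ 2) / 2| ≤ q * (c * B.u2) ^ 2 := by
    have g1 : (l.s0 - m.s0) ^ 2 ≤ (c * B.u2) ^ 2 := by rw [← sq_abs]; exact pow_le_pow_left₀ (abs_nonneg _) hcl.s0 2
    have g2 : (l.s1 - m.s1) ^ 2 ≤ (c * B.u2) ^ 2 := by rw [← sq_abs]; exact pow_le_pow_left₀ (abs_nonneg _) hcl.s1 2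
    have g3 : 0 ≤ (l.s0 - m.s0) ^ 2 + (l.s1 - m.s1) ^ 2 := by positivity
    rw [mul_div_assoc, abs_mul, abs_of_nonneg (a := ((l.s0 - m.s0) ^ 2 + (l.s1 - m.s1) ^ 2) / 2) (by positivity)]
    exact mul_le_mul hn.t (by linarith) (by positivity) (by linarith)
  rw [e]
  have tri : ∀ a b c d e f g : ℝ, |a + (-b) + (-c) + d + e + f + g| ≤ |a| + |b| + |c| + |d| + |e| + |f| + |g| := by
    intro a b c d e f g
    refine (abs_add_le _ _).trans (add_le_add ?_ le_rfl)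
    refine (abs_add_le _ _).trans (add_le_add ?_ le_rfl)
    refine (abs_add_le _ _).trans (add_le_add ?_ le_rfl)
    refine (abs_add_le _ _).trans (add_le_add ?_ le_rfl)
    refine (abs_add_le _ _).trans (add_le_add ?_ (by rw [abs_neg]))
    refine (abs_add_le _ _).trans (add_le_add le_rfl (by rw [abs_neg]))
  refine (tri _ _ _ _ _ _ _).trans ?_
  have := hcl.ze
  have := hn.e2
  have hw : B.u2 ^ 2 ≤ max (B.u2 ^ 2) H := le_max_left _ _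
  have hcw : c * B.u2 ^ 2 ≤ c * max (B.u2 ^ 2) H := mul_le_mul_of_nonneg_left hw hc
  nlinarith

theorem gp_bd (hq : 1 ≤ q) (hB : B.ok r H) (hl : l.In B H) (hn : Near q r H l u x0 x1 t) :
    |GP B.a B.b B.κ B.α B.p0 B.p1 B.v0 B.v1 B.ω u x0 x1 t| ≤ 10 * q ^ 2 * B.u1 := by
  have hr := hB.r0
  have hu1 : 0 < B.u1 := lt_of_lt_of_le hr hB.r1
  have hu2 : 0 < B.u2 := lt_of_lt_of_le hu1 hB.u12
  have hH := hB.H0
  have hab : |B.a| ≤ 1 := by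
    rw [← sq_le_one_iff_abs_le_one]; nlinarith [hB.n, sq_nonneg B.b]
  have hbb : |B.b| ≤ 1 := by
    rw [← sq_le_one_iff_abs_le_one]; nlinarith [hB.n, sq_nonneg B.a]
  rw [gid B.a B.b B.κ B.α B.p0 B.p1 B.v0 B.v1 B.ω l.y0 l.y1 l.s0 l.s1 l.z u x0 x1 t]
  have n0 : |B.a + B.κ * (l.s0 - B.v0) - 2 * B.α * (l.y0 - B.p0)| ≤ 2 := by
    have h1 : |B.κ * (l.s0 - B.v0)| ≤ 1/8 := by
      rw [abs_mul]; exact (mul_le_mul_of_nonneg_left hl.s0 (abs_nonneg _)).trans hB.κ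
    have h2 : |2 * B.α * (l.y0 - B.p0)| ≤ 1/4 := by
      rw [abs_mul, abs_mul, abs_two]
      have := (mul_le_mul_of_nonneg_left hl.y0 (abs_nonneg B.α)).trans hB.α
      linarith
    have := abs_sub (B.a + B.κ * (l.s0 - B.v0)) (2 * B.α * (l.y0 - B.p0))
    have := abs_add_le B.a (B.κ * (l.s0 - B.v0))
    linarith
  have n1 : |B.b + B.κ * (l.s1 - B.v1) - 2 * B.α * (l.y1 - B.p1)| ≤ 2 := by
    have h1 : |B.κ * (l.s1 - B.v1)| ≤ 1/8 := by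
      rw [abs_mul]; exact (mul_le_mul_of_nonneg_left hl.s1 (abs_nonneg _)).trans hB.κ
    have h2 : |2 * B.α * (l.y1 - B.p1)| ≤ 1/4 := by
      rw [abs_mul, abs_mul, abs_two]
      have := (mul_le_mul_of_nonneg_left hl.y1 (abs_nonneg B.α)).trans hB.α
      linarith
    have := abs_sub (B.b + B.κ * (l.s1 - B.v1)) (2 * B.α * (l.y1 - B.p1))
    have := abs_add_le B.b (B.κ * (l.s1 - B.v1))
    linarith
  have q2 : q ≤ q ^ 2 := by nlinarith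
  have q1 : 1 ≤ q ^ 2 := by nlinarith
  have b0 : |G0 B.a B.b B.κ B.α B.p0 B.p1 B.v0 B.v1 B.ω l.y0 l.y1 l.s0 l.s1 l.z| ≤ q ^ 2 * B.u1 :=
    hl.g0.trans (by nlinarith)
  have b1 : |t * G1 B.a B.b B.κ B.α B.p0 B.p1 B.v0 B.v1 B.ω l.s0 l.s1 l.z| ≤ q ^ 2 * B.u1 := by
    rw [abs_mul]
    exact (mul_le_mul hn.t hl.g1 (abs_nonneg _) (by linarith)).trans (by nlinarith)
  have b2 : |(B.a + B.κ * (l.s0 - B.v0) - 2 * B.α * (l.y0 - B.p0)) * (x0 - l.y0 - t * l.s0)| ≤ 2 * (q ^ 2 * B.u1) := by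
    rw [abs_mul]
    refine (mul_le_mul n0 hn.e0 (abs_nonneg _) (by norm_num)).trans ?_
    have : q * r ≤ q ^ 2 * B.u1 := mul_le_mul q2 hB.r1 hr.le (by positivity)
    linarith
  have b3 : |(B.b + B.κ * (l.s1 - B.v1) - 2 * B.α * (l.y1 - B.p1)) * (x1 - l.y1 - t * l.s1)| ≤ 2 * (q ^ 2 * B.u1) := by
    rw [abs_mul]
    refine (mul_le_mul n1 hn.e1 (abs_nonneg _) (by norm_num)).trans ?_
    have : q * r ≤ q ^ 2 * B.u1 := mul_le_mul q2 hB.r1 hr.le (by positivity)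
    linarith
  have b4 : |(B.κ + 2 * B.α * t) * (u - x0 * l.s0 - x1 * l.s1 + t * (l.s0 ^ 2 + l.s1 ^ 2) / 2 - l.z)| ≤ 3 * (q ^ 2 * B.u1) := by
    rw [abs_mul]
    have g1 : |B.κ + 2 * B.α * t| ≤ |B.κ| + 2 * |B.α| * q := by
      refine (abs_add_le _ _).trans (add_le_add le_rfl ?_)
      rw [abs_mul, abs_mul, abs_two]
      exact mul_le_mul_of_nonneg_left hn.t (by positivity)
    refine (mul_le_mul g1 hn.e2 (abs_nonneg _) (by positivity)).trans ?_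
    have g2 : (|B.κ| + 2 * |B.α| * q) * (q * H) = q * (|B.κ| * H) + 2 * q ^ 2 * (|B.α| * H) := by ring
    rw [g2]
    have g3 : q * (|B.κ| * H) ≤ q ^ 2 * B.u1 := mul_le_mul q2 hB.κH (by positivity) (by positivity)
    have g4 : 2 * q ^ 2 * (|B.α| * H) ≤ 2 * q ^ 2 * B.u1 := mul_le_mul_of_nonneg_left hB.αH (by positivity)
    linarith
  have b5 : |B.α * ((x0 - l.y0 - t * l.s0) ^ 2 + (x1 - l.y1 - t * l.s1) ^ 2)| ≤ q ^ 2 * B.u1 := by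
    have g1 : (x0 - l.y0 - t * l.s0) ^ 2 ≤ (q * r) ^ 2 := by
      rw [← sq_abs]; exact pow_le_pow_left₀ (abs_nonneg _) hn.e0 2
    have g2 : (x1 - l.y1 - t * l.s1) ^ 2 ≤ (q * r) ^ 2 := by
      rw [← sq_abs]; exact pow_le_pow_left₀ (abs_nonneg _) hn.e1 2
    rw [abs_mul, abs_of_nonneg (a := (x0 - l.y0 - t * l.s0) ^ 2 + (x1 - l.y1 - t * l.s1) ^ 2) (by positivity)]
    have g3 : |B.α| * r ≤ 1/8 := (mul_le_mul_of_nonneg_left (hB.r1.trans hB.u12) (abs_nonneg _)).trans hB.α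
    calc |B.α| * ((x0 - l.y0 - t * l.s0) ^ 2 + (x1 - l.y1 - t * l.s1) ^ 2) ≤ |B.α| * (2 * (q * r) ^ 2) :=
          mul_le_mul_of_nonneg_left (by linarith) (abs_nonneg _)
      _ = 2 * q ^ 2 * r * (|B.α| * r) := by ring
      _ ≤ 2 * q ^ 2 * r * (1/8) := mul_le_mul_of_nonneg_left g3 (by positivity)
      _ ≤ q ^ 2 * B.u1 := by nlinarith [hB.r1]
  have tri : ∀ a b c d e f : ℝ, |a + b + c + d + e - f| ≤ |a| + |b| + |c| + |d| + |e| + |f| := by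
    intro a b c d e f
    refine (abs_sub _ _).trans (add_le_add ?_ le_rfl)
    refine (abs_add_le _ _).trans (add_le_add ?_ le_rfl)
    refine (abs_add_le _ _).trans (add_le_add ?_ le_rfl)
    refine (abs_add_le _ _).trans (add_le_add ?_ le_rfl)
    exact abs_add_le _ _
  refine (tri _ _ _ _ _ _).trans ?_
  linarith

/-- the recentred slab condition -/
theorem rec_bd (hq : 1 ≤ q) (hB : B.ok r H) (hl : l.In B H) (hm : m.In B H) (hn : Near q r H l u x0 x1 t) :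
    |(B.a + B.κ * (m.s0 - B.v0) - 2 * B.α * (m.y0 - B.p0)) * m.e0 x0 t +
      (B.b + B.κ * (m.s1 - B.v1) - 2 * B.α * (m.y1 - B.p1)) * m.e1 x1 t + (B.κ + 2 * B.α * t) * m.e2 u x0 x1 t -
      B.α * (m.e0 x0 t ^ 2 + m.e1 x1 t ^ 2)| ≤ 12 * q ^ 2 * B.u1 := by
  have hu1 : 0 < B.u1 := lt_of_lt_of_le hB.r0 hB.r1
  have h := gp_bd hq hB hl hn
  rw [gid B.a B.b B.κ B.α B.p0 B.p1 B.v0 B.v1 B.ω m.y0 m.y1 m.s0 m.s1 m.z u x0 x1 t] at h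
  have e : (B.a + B.κ * (m.s0 - B.v0) - 2 * B.α * (m.y0 - B.p0)) * m.e0 x0 t +
      (B.b + B.κ * (m.s1 - B.v1) - 2 * B.α * (m.y1 - B.p1)) * m.e1 x1 t + (B.κ + 2 * B.α * t) * m.e2 u x0 x1 t -
      B.α * (m.e0 x0 t ^ 2 + m.e1 x1 t ^ 2) =
      (G0 B.a B.b B.κ B.α B.p0 B.p1 B.v0 B.v1 B.ω m.y0 m.y1 m.s0 m.s1 m.z +
            t * G1 B.a B.b B.κ B.α B.p0 B.p1 B.v0 B.v1 B.ω m.s0 m.s1 m.z +
          (B.a + B.κ * (m.s0 - B.v0) - 2 * B.α * (m.y0 - B.p0)) * (x0 - m.y0 - t * m.s0) +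
        (B.b + B.κ * (m.s1 - B.v1) - 2 * B.α * (m.y1 - B.p1)) * (x1 - m.y1 - t * m.s1) +
      (B.κ + 2 * B.α * t) * (u - x0 * m.s0 - x1 * m.s1 + t * (m.s0 ^ 2 + m.s1 ^ 2) / 2 - m.z) -
    B.α * ((x0 - m.y0 - t * m.s0) ^ 2 + (x1 - m.y1 - t * m.s1) ^ 2)) - (m.g0 B + t * m.g1 B) := by
    unfold RP.e0 RP.e1 RP.e2 RP.g0 RP.g1; ring
  rw [e]
  refine (abs_sub _ _).trans ?_
  have h2 : |m.g0 B + t * m.g1 B| ≤ 2 * q ^ 2 * B.u1 := by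
    refine (abs_add_le _ _).trans ?_
    have g1 := hm.g0
    have g2 : |t * m.g1 B| ≤ q * B.u1 := by
      rw [abs_mul]; exact mul_le_mul hn.t hm.g1 (abs_nonneg _) (by linarith)
    have q2 : q * B.u1 ≤ q ^ 2 * B.u1 := mul_le_mul_of_nonneg_right (by nlinarith) hu1.le
    have q1 : B.u1 ≤ q ^ 2 * B.u1 := by nlinarith
    linarith
  linarith

/-- the recentred covector -/
theorem nrm (hB : B.ok r H) (hm : m.In B H) :
    1 / 4 ≤ (B.a + B.κ * (m.s0 - B.v0) - 2 * B.α * (m.y0 - B.p0)) ^ 2 +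
      (B.b + B.κ * (m.s1 - B.v1) - 2 * B.α * (m.y1 - B.p1)) ^ 2 := by
  have hu1 : 0 < B.u1 := lt_of_lt_of_le hB.r0 hB.r1
  rw [nid _ _ _ _ _ _ _ _ B.ω _ _ _ _ m.z hB.n]
  have h1 : |B.κ * m.g1 B| ≤ 1/8 := by
    rw [abs_mul]
    exact (mul_le_mul_of_nonneg_left (hm.g1.trans hB.u12) (abs_nonneg _)).trans hB.κ
  have h2 : |B.α * m.g0 B| ≤ 1/8 := by
    rw [abs_mul]
    exact (mul_le_mul_of_nonneg_left (hm.g0.trans hB.u12) (abs_nonneg _)).trans hB.α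
  have h3 := (abs_le.1 h1).1
  have h4 := (abs_le.1 h2).2
  unfold RP.g1 at h3
  unfold RP.g0 at h4
  linarith

end Vale.Agent.P106.W.Vol
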