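import Vale.Agent.P106.W812.VolD

/-! # P106 / W812 : volume of the slice of a family of planks in a conformal box (helper812) -/

open MeasureTheory Set
open scoped ENNReal

set_option linter.all false

namespace Vale.Agent.P106.W.Vol

/-- matrix of the coordinates adapted to the ray `m` on the hyperplane `t = -u/32`, `P = (x0, x1, u)` -/
noncomputable def MM (m : RP) : Matrix (Fin 3) (Fin 3) ℝ :=
  !![1, 0, m.s0 / 32; 0, 1, m.s1 / 32; -m.s0, -m.s1, 1 - (m.s0 ^ 2 + m.s1 ^ 2) / 64]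

theorem MM_det (m : RP) : 1 ≤ |(MM m).det| := by
  have : (MM m).det = 1 + (m.s0 ^ 2 + m.s1 ^ 2) / 64 := by
    unfold MM
    rw [Matrix.det_fin_three]
    simp
    ring
  rw [this]
  rw [abs_of_nonneg (by positivity)]
  have : 0 ≤ (m.s0 ^ 2 + m.s1 ^ 2) / 64 := by positivity
  linarith

noncomputable def bb (m : RP) : Fin 3 → ℝ := ![-m.y0, -m.y1, -m.z]

theorem aff0 (m : RP) (P : Fin 3 → ℝ) : ((MM m).mulVec P + bb m) 0 = m.e0 (P 0) (-(P 2) / 32) := by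
  simp [MM, bb, Matrix.mulVec, dotProduct, Fin.sum_univ_three, RP.e0]
  ring

theorem aff1 (m : RP) (P : Fin 3 → ℝ) : ((MM m).mulVec P + bb m) 1 = m.e1 (P 1) (-(P 2) / 32) := by
  simp [MM, bb, Matrix.mulVec, dotProduct, Fin.sum_univ_three, RP.e1]
  ring

theorem aff2 (m : RP) (P : Fin 3 → ℝ) : ((MM m).mulVec P + bb m) 2 = m.e2 (P 2) (P 0) (P 1) (-(P 2) / 32) := by
  simp [MM, bb, Matrix.mulVec, dotProduct, Fin.sum_univ_three, RP.e2]
  ring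

/-- the time of the point in adapted coordinates -/
theorem t_aff (m : RP) (u x0 x1 : ℝ) :
    -u / 32 = (-(m.z + (m.y0 * m.s0 + m.y1 * m.s1)) / (32 + (m.s0 ^ 2 + m.s1 ^ 2) / 2)) +
      (-m.s0 / (32 + (m.s0 ^ 2 + m.s1 ^ 2) / 2)) * m.e0 x0 (-u / 32) +
      (-m.s1 / (32 + (m.s0 ^ 2 + m.s1 ^ 2) / 2)) * m.e1 x1 (-u / 32) +
      (-1 / (32 + (m.s0 ^ 2 + m.s1 ^ 2) / 2)) * m.e2 u x0 x1 (-u / 32) := by
  have h : (32 + (m.s0 ^ 2 + m.s1 ^ 2) / 2) ≠ 0 := by positivity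
  field_simp
  unfold RP.e0 RP.e1 RP.e2
  ring

variable {B : BP} {r H q c : ℝ}

/-- the points near the rays of a class -/
def EC (B : BP) (q r H c : ℝ) (m : RP) : Set (Fin 3 → ℝ) :=
  {P | ∃ l : RP, l.In B H ∧ Cls B H c l m ∧ Near q r H l (P 2) (P 0) (P 1) (-(P 2) / 32)}

theorem EC_sub (hq : 1 ≤ q) (hB : B.ok r H) (hc : 0 ≤ c) {m : RP} (hm : m.In B H) :
    EC B q r H c m ⊆ (fun P => (MM m).mulVec P + bb m) ⁻¹'
      SS (B.a + B.κ * (m.s0 - B.v0) - 2 * B.α * (m.y0 - B.p0)) (B.b + B.κ * (m.s1 - B.v1) - 2 * B.α * (m.y1 - B.p1))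
        B.κ B.α (-(m.z + (m.y0 * m.s0 + m.y1 * m.s1)) / (32 + (m.s0 ^ 2 + m.s1 ^ 2) / 2))
        (-m.s0 / (32 + (m.s0 ^ 2 + m.s1 ^ 2) / 2)) (-m.s1 / (32 + (m.s0 ^ 2 + m.s1 ^ 2) / 2))
        (-1 / (32 + (m.s0 ^ 2 + m.s1 ^ 2) / 2))
        ((1 + q) * c * B.u2 + q * r)
        (3 * c * max (B.u2 ^ 2) H + q * H + 2 * q * r * c * B.u2 + q * c ^ 2 * B.u2 ^ 2) (12 * q ^ 2 * B.u1) := by
  rintro P ⟨l, hl, hcl, hn⟩
  refine ⟨?_, ?_, ?_, ?_⟩ <;> beta_reduce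
  · rw [aff0]; exact near_e0 hq hB hc hcl hn
  · rw [aff1]; exact near_e1 hq hB hc hcl hn
  · rw [aff2]; exact near_e2 hq hB hc hm hcl hn
  · rw [aff0, aff1, aff2, ← t_aff m (P 2) (P 0) (P 1)]
    exact rec_bd hq hB hl hm hn

/-- smallness of the second order terms -/
theorem sm_bd {α u2 H q r c W : ℝ} (hα : |α| * u2 ≤ 1 / 8) (hq : 1 ≤ q) (hr : 0 < r) (hu2 : 0 < u2) (hu21 : u2 ≤ 1) (hH : 0 ≤ H)
    (hc0 : 0 < c) (hc1 : c ≤ 1 / 20) (hcq : q * c = 1 / 20) (hW0 : 0 < W) (hW3 : W ≤ u2 ^ 2 + H)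
    (hu' : q * r ≤ u2 / 20) (hqH : q * H ≤ u2 / 20) :
    2 * |α| * ((1 + q) * c * u2 + q * r) + 2 * |α| * (1 * (3 * c * W + q * H + 2 * q * r * c * u2 + q * c ^ 2 * u2 ^ 2)) ≤ 1 / 6 := by
  have hα0 := abs_nonneg α
  set x := |α| with hx
  have k1 : x * (q * r) ≤ 1 / 160 := by
    have := mul_le_mul_of_nonneg_left hu' hα0
    linarith
  have k2 : x * (q * H) ≤ 1 / 160 := by
    have := mul_le_mul_of_nonneg_left hqH hα0
    linarith
  have k3 : x * H ≤ 1 / 160 := by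
    have h1 : 1 * (x * H) ≤ q * (x * H) := mul_le_mul_of_nonneg_right hq (by positivity)
    have h2 : q * (x * H) = x * (q * H) := by ring
    linarith
  have k4 : x * u2 ^ 2 ≤ 1 / 8 := by
    have h1 : x * u2 * u2 ≤ 1 / 8 * 1 := mul_le_mul hα hu21 hu2.le (by norm_num)
    have h2 : x * u2 ^ 2 = x * u2 * u2 := by ring
    linarith
  have w1 : x * W ≤ 1 / 8 + 1 / 160 := by
    have := mul_le_mul_of_nonneg_left hW3 hα0
    rw [mul_add] at this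
    linarith
  have r20 : r ≤ 1 / 20 := by
    have : 1 * r ≤ q * r := mul_le_mul_of_nonneg_right hq hr.le
    linarith
  have e : 2 * x * ((1 + q) * c * u2 + q * r) + 2 * x * (1 * (3 * c * W + q * H + 2 * q * r * c * u2 + q * c ^ 2 * u2 ^ 2)) =
      2 * ((x * u2) * c) + 2 * ((x * u2) * (q * c)) + 2 * (x * (q * r)) + 6 * (c * (x * W)) + 2 * (x * (q * H)) +
        4 * ((q * c) * ((x * u2) * r)) + 2 * ((q * c) * (c * (x * u2 ^ 2))) := by ring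
  rw [e, hcq]
  have f1 : (x * u2) * c ≤ 1 / 8 * (1 / 20) := mul_le_mul hα hc1 hc0.le (by norm_num)
  have f2 : c * (x * W) ≤ 1 / 20 * (1 / 8 + 1 / 160) := mul_le_mul hc1 w1 (by positivity) (by norm_num)
  have f3 : (x * u2) * r ≤ 1 / 8 * (1 / 20) := mul_le_mul hα r20 hr.le (by norm_num)
  have f4 : c * (x * u2 ^ 2) ≤ 1 / 20 * (1 / 8) := mul_le_mul hc1 k4 (by positivity) (by norm_num)
  linarith

theorem sz1 {u2 q r c : ℝ} (hu2 : 0 < u2) (hc1 : c ≤ 1 / 20) (hcq : q * c = 1 / 20) (hu' : q * r ≤ u2 / 20) :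
    (1 + q) * c * u2 + q * r ≤ u2 := by
  have e : (1 + q) * c * u2 + q * r = c * u2 + (q * c) * u2 + q * r := by ring
  rw [e, hcq]
  have : c * u2 ≤ 1 / 20 * u2 := mul_le_mul_of_nonneg_right hc1 hu2.le
  linarith

theorem sz2 {u2 H q r c W : ℝ} (hq : 1 ≤ q) (hr : 0 < r) (hu2 : 0 < u2) (hr1 : r ≤ u2) (hc0 : 0 < c) (hc1 : c ≤ 1 / 20)
    (hcq : q * c = 1 / 20) (hW0 : 0 < W) (hW1 : u2 ^ 2 ≤ W) (hW2 : H ≤ W) :
    3 * c * W + q * H + 2 * q * r * c * u2 + q * c ^ 2 * u2 ^ 2 ≤ 2 * q * W := by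
  have e : 3 * c * W + q * H + 2 * q * r * c * u2 + q * c ^ 2 * u2 ^ 2 =
      3 * (c * W) + q * H + 2 * (q * c) * (r * u2) + (q * c) * (c * u2 ^ 2) := by ring
  rw [e, hcq]
  have g1 : c * W ≤ 1 / 20 * W := mul_le_mul_of_nonneg_right hc1 hW0.le
  have g2 : q * H ≤ q * W := mul_le_mul_of_nonneg_left hW2 (by linarith)
  have g3 : r * u2 ≤ W := by
    have : r * u2 ≤ u2 * u2 := mul_le_mul_of_nonneg_right hr1 hu2.le
    nlinarith
  have g4 : c * u2 ^ 2 ≤ 1 / 20 * W := mul_le_mul hc1 hW1 (by positivity) (by norm_num)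
  have g5 : 1 * W ≤ q * W := mul_le_mul_of_nonneg_right hq hW0.le
  linarith

theorem EC_big (hq : 1 ≤ q) (hB : B.ok r H) (hHr : H ≤ r) {m : RP} (hm : m.In B H) (hs0 : |m.s0| ≤ 1) (hs1 : |m.s1| ≤ 1)
    (hu : 20 * q ^ 2 * r ≤ B.u2) :
    volume (EC B q r H (1 / (20 * q)) m) ≤ ENNReal.ofReal (2304 * q ^ 3 * (B.u1 * B.u2 * max (B.u2 ^ 2) H)) := by
  have hr := hB.r0
  have hu1 : 0 < B.u1 := lt_of_lt_of_le hr hB.r1
  have hu2 : 0 < B.u2 := lt_of_lt_of_le hu1 hB.u12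
  have hH := hB.H0
  have hq0 : 0 < q := by linarith
  have hu21 := hB.u2
  have hr1 : r ≤ B.u2 := hB.r1.trans hB.u12
  have hα := hB.α
  set W := max (B.u2 ^ 2) H with hW
  have hW1 : B.u2 ^ 2 ≤ W := le_max_left _ _
  have hW2 : H ≤ W := le_max_right _ _
  have hW0 : 0 < W := lt_of_lt_of_le (by positivity) hW1
  have hW3 : W ≤ B.u2 ^ 2 + H := max_le (by linarith) (by nlinarith)
  set c : ℝ := 1 / (20 * q) with hc
  have hc0 : 0 < c := by positivity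
  have hcq : q * c = 1 / 20 := by rw [hc]; field_simp
  have hc1 : c ≤ 1 / 20 := by
    rw [hc]; exact one_div_le_one_div_of_le (by norm_num) (by linarith)
  have hu' : q * r ≤ B.u2 / 20 := by
    have h1 : q ≤ q ^ 2 := by nlinarith
    have h2 : q * r ≤ q ^ 2 * r := mul_le_mul_of_nonneg_right h1 hr.le
    linarith
  have hqH : q * H ≤ B.u2 / 20 := (mul_le_mul_of_nonneg_left hHr hq0.le).trans hu'
  have s1 := sz1 hu2 hc1 hcq hu'
  have s2 := sz2 hq hr hu2 hr1 hc0 hc1 hcq hW0 hW1 hW2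
  have hsm := sm_bd hα hq hr hu2 hu21 hH hc0 hc1 hcq hW0 hW3 hu' hqH
  have ha10 : 0 ≤ (1 + q) * c * B.u2 + q * r := by positivity
  have ha20 : 0 ≤ 3 * c * W + q * H + 2 * q * r * c * B.u2 + q * c ^ 2 * B.u2 ^ 2 := by positivity
  have hden : (32:ℝ) ≤ 32 + (m.s0 ^ 2 + m.s1 ^ 2) / 2 := by
    have : 0 ≤ (m.s0 ^ 2 + m.s1 ^ 2) / 2 := by positivity
    linarith
  have hT : ∀ s : ℝ, |s| ≤ 1 → |-s / (32 + (m.s0 ^ 2 + m.s1 ^ 2) / 2)| ≤ 1 := by
    intro s hs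
    rw [abs_div, abs_neg, abs_of_pos (a := 32 + (m.s0 ^ 2 + m.s1 ^ 2) / 2) (by linarith), div_le_one (by linarith)]
    linarith
  have sub := EC_sub hq hB hc0.le hm
  clear_value c
  generalize (1 + q) * c * B.u2 + q * r = a1 at *
  generalize 3 * c * W + q * H + 2 * q * r * c * B.u2 + q * c ^ 2 * B.u2 ^ 2 = a2 at *
  calc volume (EC B q r H c m) ≤ volume ((fun P => (MM m).mulVec P + bb m) ⁻¹' _) := measure_mono sub
    _ ≤ ENNReal.ofReal (1:ℝ)⁻¹ * volume _ := vol_aff one_pos (MM_det m) _ (mSS _ _ _ _ _ _ _ _ _ _ _)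
    _ ≤ ENNReal.ofReal (1:ℝ)⁻¹ * (ENNReal.ofReal (24 * (12 * q ^ 2 * B.u1)) * (ENNReal.ofReal (2 * a1) * ENNReal.ofReal (2 * a2))) := by
        refine mul_le_mul' le_rfl ?_
        exact volS ha10 ha20 (by positivity) (nrm hB hm) (hT _ hs0) (hT _ hs1) hsm
    _ = ENNReal.ofReal (24 * (12 * q ^ 2 * B.u1) * ((2 * a1) * (2 * a2))) := by
        rw [inv_one, ENNReal.ofReal_one, one_mul, ← ENNReal.ofReal_mul (by positivity), ← ENNReal.ofReal_mul (by positivity)]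
    _ ≤ _ := by
        refine ENNReal.ofReal_le_ofReal ?_
        have h1 : (2 * a1) * (2 * a2) ≤ (2 * B.u2) * (2 * (2 * q * W)) :=
          mul_le_mul (by linarith) (by linarith) (by linarith) (by linarith)
        have h2 : 24 * (12 * q ^ 2 * B.u1) * ((2 * a1) * (2 * a2)) ≤ 24 * (12 * q ^ 2 * B.u1) * ((2 * B.u2) * (2 * (2 * q * W))) :=
          mul_le_mul_of_nonneg_left h1 (by positivity)
        refine h2.trans (le_of_eq ?_)
        ring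

theorem EC_small (hq : 1 ≤ q) (hB : B.ok r H) {m : RP} (hm : m.In B H) (hu : B.u2 ≤ 20 * q ^ 2 * r) :
    volume (EC B q r H 2 m) ≤ ENNReal.ofReal (60000 * q ^ 5 * (B.u1 * B.u2 * max (B.u2 ^ 2) H)) := by
  have hr := hB.r0
  have hu1 : 0 < B.u1 := lt_of_lt_of_le hr hB.r1
  have hu2 : 0 < B.u2 := lt_of_lt_of_le hu1 hB.u12
  have hH := hB.H0
  have hq0 : 0 < q := by linarith
  set W := max (B.u2 ^ 2) H with hW
  have hW1 : B.u2 ^ 2 ≤ W := le_max_left _ _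
  have hW2 : H ≤ W := le_max_right _ _
  have hW0 : 0 < W := lt_of_lt_of_le (by positivity) hW1
  have hr1 : r ≤ B.u2 := hB.r1.trans hB.u12
  set a1 : ℝ := (1 + q) * 2 * B.u2 + q * r with ha1
  set a2 : ℝ := 3 * 2 * W + q * H + 2 * q * r * 2 * B.u2 + q * 2 ^ 2 * B.u2 ^ 2 with ha2
  have ha10 : 0 ≤ a1 := by positivity
  have ha20 : 0 ≤ a2 := by positivity
  have qr : q * r ≤ q * B.u2 := mul_le_mul_of_nonneg_left hr1 hq0.le
  have qu : B.u2 ≤ q * B.u2 := by nlinarith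
  have s1 : a1 ≤ 5 * q * B.u2 := by rw [ha1]; linarith
  have s2 : a2 ≤ 15 * q * W := by
    have g2 : q * H ≤ q * W := mul_le_mul_of_nonneg_left hW2 hq0.le
    have g3 : q * (r * B.u2) ≤ q * W := by
      refine mul_le_mul_of_nonneg_left ?_ hq0.le
      nlinarith
    have g4 : q * B.u2 ^ 2 ≤ q * W := mul_le_mul_of_nonneg_left hW1 hq0.le
    have g5 : W ≤ q * W := by nlinarith
    rw [ha2]
    nlinarith
  calc volume (EC B q r H 2 m) ≤ volume ((fun P => (MM m).mulVec P + bb m) ⁻¹' _) := measure_mono (EC_sub hq hB (by norm_num) hm)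
    _ ≤ ENNReal.ofReal (1:ℝ)⁻¹ * volume _ := vol_aff one_pos (MM_det m) _ (mSS _ _ _ _ _ _ _ _ _ _ _)
    _ ≤ ENNReal.ofReal (1:ℝ)⁻¹ * (ENNReal.ofReal (2 * a1) * (ENNReal.ofReal (2 * a1) * ENNReal.ofReal (2 * a2))) := by
        refine mul_le_mul' le_rfl ?_
        exact volS' ha10 ha20
    _ = ENNReal.ofReal ((2 * a1) * ((2 * a1) * (2 * a2))) := by
        rw [inv_one, ENNReal.ofReal_one, one_mul, ← ENNReal.ofReal_mul (by positivity), ← ENNReal.ofReal_mul (by positivity)]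
    _ ≤ _ := by
        refine ENNReal.ofReal_le_ofReal ?_
        calc (2 * a1) * ((2 * a1) * (2 * a2)) ≤ (2 * (5 * q * B.u2)) * ((2 * (5 * q * B.u2)) * (2 * (15 * q * W))) := by gcongr
          _ = 3000 * q ^ 3 * (B.u2 * W) * B.u2 := by ring
          _ ≤ 3000 * q ^ 3 * (B.u2 * W) * (20 * q ^ 2 * r) := by gcongr
          _ ≤ 3000 * q ^ 3 * (B.u2 * W) * (20 * q ^ 2 * B.u1) := by
              have := hB.r1
              gcongr
          _ = _ := by ring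

end Vale.Agent.P106.W.Vol
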