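import Vale.Agent.P106.W812.VolE

/-! # P106 / W812 : union over the classes of rays (helper812) -/

open MeasureTheory Set
open scoped ENNReal

set_option linter.all false

namespace Vale.Agent.P106.W.Vol

variable {B : BP} {r H q c : ℝ}

/-- index of the class of a ray -/
noncomputable def idx (B : BP) (H c : ℝ) (l : RP) : Fin 5 → ℤ :=
  ![⌊(l.y0 - B.p0) / (c * B.u2)⌋, ⌊(l.y1 - B.p1) / (c * B.u2)⌋, ⌊(l.s0 - B.v0) / (c * B.u2)⌋, ⌊(l.s1 - B.v1) / (c * B.u2)⌋,
    ⌊l.ze B / (c * max (B.u2 ^ 2) H)⌋]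

theorem floor_close {x y d : ℝ} (hd : 0 < d) (h : ⌊x / d⌋ = ⌊y / d⌋) : |x - y| ≤ d := by
  have h1 := Int.abs_sub_lt_one_of_floor_eq_floor h
  rw [← sub_div, abs_div, abs_of_pos hd, div_lt_one hd] at h1
  exact h1.le

theorem floor_mem {x a q : ℝ} {N : ℤ} (hq : 0 < q) (ha : 0 < a) (hN : 20 * q ≤ N) (h : |x| ≤ a) :
    ⌊x / (1 / (20 * q) * a)⌋ ∈ Finset.Icc (-N) N := by
  have hd : 0 < 1 / (20 * q) * a := by positivity
  have h1 : |x / (1 / (20 * q) * a)| ≤ 20 * q := by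
    rw [abs_div, abs_of_pos hd, div_le_iff₀ hd]
    have : 20 * q * (1 / (20 * q) * a) = a := by field_simp
    rw [this]; exact h
  have h2 := abs_le.1 h1
  rw [Finset.mem_Icc]
  constructor
  · rw [Int.le_floor]; push_cast; linarith
  · have : ((⌊x / (1 / (20 * q) * a)⌋ : ℤ) : ℝ) ≤ (N : ℝ) := (Int.floor_le _).trans (by linarith)
    exact_mod_cast this

theorem idx_cls {l m : RP} (hu2 : 0 < B.u2) (hc : 0 < c) (h : idx B H c l = idx B H c m) : Cls B H c l m := by
  have hW : 0 < max (B.u2 ^ 2) H := lt_of_lt_of_le (by positivity) (le_max_left _ _)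
  have g0 := congrFun h 0
  have g1 := congrFun h 1
  have g2 := congrFun h 2
  have g3 := congrFun h 3
  have g4 := congrFun h 4
  simp only [idx, Matrix.cons_val_zero, Matrix.cons_val_one, Matrix.cons_val] at g0 g1 g2 g3 g4
  refine ⟨?_, ?_, ?_, ?_, ?_⟩
  · have := floor_close (by positivity) g0; rwa [sub_sub_sub_cancel_right] at this
  · have := floor_close (by positivity) g1; rwa [sub_sub_sub_cancel_right] at this
  · have := floor_close (by positivity) g2; rwa [sub_sub_sub_cancel_right] at this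
  · have := floor_close (by positivity) g3; rwa [sub_sub_sub_cancel_right] at this
  · exact floor_close (by positivity) g4

theorem idx_mem {l : RP} {N : ℤ} (hq : 0 < q) (hu2 : 0 < B.u2) (hN : 20 * q ≤ N) (hl : l.In B H) :
    idx B H (1 / (20 * q)) l ∈ Fintype.piFinset fun _ : Fin 5 => Finset.Icc (-N) N := by
  have hW : 0 < max (B.u2 ^ 2) H := lt_of_lt_of_le (by positivity) (le_max_left _ _)
  rw [Fintype.mem_piFinset]
  intro i
  fin_cases i
  · exact floor_mem hq hu2 hN hl.y0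
  · exact floor_mem hq hu2 hN hl.y1
  · exact floor_mem hq hu2 hN hl.s0
  · exact floor_mem hq hu2 hN hl.s1
  · exact floor_mem hq hW hN hl.ze

/-- the volume of the slice -/
theorem vol_all (hq : 1 ≤ q) (hB : B.ok r H) (hHr : H ≤ r) (U : Set RP) (hU : ∀ l ∈ U, l.In B H ∧ |l.s0| ≤ 1 ∧ |l.s1| ≤ 1) :
    volume {P : Fin 3 → ℝ | ∃ l ∈ U, Near q r H l (P 2) (P 0) (P 1) (-(P 2) / 32)} ≤
      ENNReal.ofReal (43 ^ 5 * 2304 * q ^ 8 * (B.u1 * B.u2 * max (B.u2 ^ 2) H)) := by
  classical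
  have hr := hB.r0
  have hu1 : 0 < B.u1 := lt_of_lt_of_le hr hB.r1
  have hu2 : 0 < B.u2 := lt_of_lt_of_le hu1 hB.u12
  have hq0 : 0 < q := by linarith
  have hW : 0 < max (B.u2 ^ 2) H := lt_of_lt_of_le (by positivity) (le_max_left _ _)
  have hX : 0 ≤ B.u1 * B.u2 * max (B.u2 ^ 2) H := by positivity
  rcases le_total B.u2 (20 * q ^ 2 * r) with hu | hu
  · rcases U.eq_empty_or_nonempty with he | ⟨m, hm⟩
    · subst he; simp
    · have sub : {P : Fin 3 → ℝ | ∃ l ∈ U, Near q r H l (P 2) (P 0) (P 1) (-(P 2) / 32)} ⊆ EC B q r H 2 m := by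
        rintro P ⟨l, hl, hn⟩
        have h1 := (hU l hl).1
        have h2 := (hU m hm).1
        refine ⟨l, h1, ⟨?_, ?_, ?_, ?_, ?_⟩, hn⟩
        · have := abs_sub (l.y0 - B.p0) (m.y0 - B.p0)
          rw [sub_sub_sub_cancel_right] at this
          linarith [h1.y0, h2.y0]
        · have := abs_sub (l.y1 - B.p1) (m.y1 - B.p1)
          rw [sub_sub_sub_cancel_right] at this
          linarith [h1.y1, h2.y1]
        · have := abs_sub (l.s0 - B.v0) (m.s0 - B.v0)
          rw [sub_sub_sub_cancel_right] at this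
          linarith [h1.s0, h2.s0]
        · have := abs_sub (l.s1 - B.v1) (m.s1 - B.v1)
          rw [sub_sub_sub_cancel_right] at this
          linarith [h1.s1, h2.s1]
        · have := abs_sub (l.ze B) (m.ze B)
          linarith [h1.ze, h2.ze]
      refine (measure_mono sub).trans ((EC_small hq hB (hU m hm).1 hu).trans ?_)
      refine ENNReal.ofReal_le_ofReal ?_
      refine mul_le_mul_of_nonneg_right ?_ hX
      have h5 : q ^ 5 ≤ q ^ 8 := pow_le_pow_right₀ hq (by norm_num)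
      have h0 : 0 ≤ q ^ 8 := by positivity
      nlinarith
  · set c : ℝ := 1 / (20 * q) with hc
    have hc0 : 0 < c := by positivity
    obtain ⟨N, hN1, hN2⟩ : ∃ N : ℕ, 20 * q ≤ (N : ℤ) ∧ (2 * (N:ℝ) + 1) ≤ 43 * q := by
      refine ⟨⌈20 * q⌉₊, ?_, ?_⟩
      · have := Nat.le_ceil (20 * q); exact_mod_cast this
      · have := Nat.ceil_lt_add_one (show 0 ≤ 20 * q by positivity); linarith
    set I := Fintype.piFinset fun _ : Fin 5 => Finset.Icc (-(N:ℤ)) N with hI
    have hcard : (I.card : ℝ) ≤ (43 * q) ^ 5 := by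
      rw [hI, Fintype.card_piFinset]
      simp only [Int.card_Icc, Finset.prod_const, Finset.card_univ, Fintype.card_fin]
      have e : ((N:ℤ) + 1 - -(N:ℤ)).toNat = 2 * N + 1 := by omega
      rw [e]
      push_cast
      exact pow_le_pow_left₀ (by positivity) hN2 5
    have sub : {P : Fin 3 → ℝ | ∃ l ∈ U, Near q r H l (P 2) (P 0) (P 1) (-(P 2) / 32)} ⊆
        ⋃ i ∈ I, {P : Fin 3 → ℝ | ∃ l ∈ U, idx B H c l = i ∧ Near q r H l (P 2) (P 0) (P 1) (-(P 2) / 32)} := by
      rintro P ⟨l, hl, hn⟩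
      simp only [mem_iUnion, exists_prop]
      exact ⟨idx B H c l, idx_mem hq0 hu2 hN1 (hU l hl).1, l, hl, rfl, hn⟩
    have each : ∀ i ∈ I, volume {P : Fin 3 → ℝ | ∃ l ∈ U, idx B H c l = i ∧ Near q r H l (P 2) (P 0) (P 1) (-(P 2) / 32)} ≤
        ENNReal.ofReal (2304 * q ^ 3 * (B.u1 * B.u2 * max (B.u2 ^ 2) H)) := by
      intro i _
      by_cases hne : ∃ m ∈ U, idx B H c m = i
      · obtain ⟨m, hm, hmi⟩ := hne
        have s : {P : Fin 3 → ℝ | ∃ l ∈ U, idx B H c l = i ∧ Near q r H l (P 2) (P 0) (P 1) (-(P 2) / 32)} ⊆ EC B q r H c m := by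
          rintro P ⟨l, hl, hli, hn⟩
          exact ⟨l, (hU l hl).1, idx_cls hu2 hc0 (hli.trans hmi.symm), hn⟩
        exact (measure_mono s).trans (EC_big hq hB hHr (hU m hm).1 (hU m hm).2.1 (hU m hm).2.2 hu)
      · have : {P : Fin 3 → ℝ | ∃ l ∈ U, idx B H c l = i ∧ Near q r H l (P 2) (P 0) (P 1) (-(P 2) / 32)} = ∅ := by
          ext P
          simp only [mem_setOf_eq, mem_empty_iff_false, iff_false]
          rintro ⟨l, hl, hli, _⟩
          exact hne ⟨l, hl, hli⟩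
        rw [this]; simp
    calc volume {P : Fin 3 → ℝ | ∃ l ∈ U, Near q r H l (P 2) (P 0) (P 1) (-(P 2) / 32)}
        ≤ ∑ i ∈ I, volume {P : Fin 3 → ℝ | ∃ l ∈ U, idx B H c l = i ∧ Near q r H l (P 2) (P 0) (P 1) (-(P 2) / 32)} :=
          (measure_mono sub).trans (measure_biUnion_finset_le _ _)
      _ ≤ ∑ i ∈ I, ENNReal.ofReal (2304 * q ^ 3 * (B.u1 * B.u2 * max (B.u2 ^ 2) H)) := Finset.sum_le_sum each
      _ = ENNReal.ofReal (I.card * (2304 * q ^ 3 * (B.u1 * B.u2 * max (B.u2 ^ 2) H))) := by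
          rw [Finset.sum_const, nsmul_eq_mul, ENNReal.ofReal_mul (p := (I.card : ℝ)) (by positivity), ENNReal.ofReal_natCast]
      _ ≤ _ := by
          refine ENNReal.ofReal_le_ofReal ?_
          have h0 : 0 ≤ 2304 * q ^ 3 * (B.u1 * B.u2 * max (B.u2 ^ 2) H) := by positivity
          refine (mul_le_mul_of_nonneg_right hcard h0).trans (le_of_eq ?_)
          ring

end Vale.Agent.P106.W.Vol
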