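import Vale.Agent.P106.W812.VolF
import Vale.Agent.P106.AN.Defs
import Vale.Agent.P106.W301.StE

/-! # P106 / W812 : [VOL] slice of a conformal box on the data hyperplane, and `Bes → KTn` (helper812) -/

open MeasureTheory Set
open Vale.Agent.P122.C2 (Z2 fw fn par kids Cap)
open Vale.Agent.P106.AN
open Vale.Agent.P106.W (s0 tl Amp Cbx InB hh KTop StCORE ry rz)
open Vale.Agent.P106.W301 (E3 hp Pk Bes)
open scoped ENNReal FourierTransform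

set_option linter.all false

namespace Vale.Agent.P106.W.Vol

/-- the box as a `BP` -/
noncomputable def toBP (B : Cbx) : BP :=
  ⟨-Real.sin B.θ, Real.cos B.θ, B.κ, B.α, B.p 0, B.p 1, B.v 0, B.v 1, B.ω, B.u1, B.u2⟩

/-- the ray of a node of the top level -/
noncomputable def toRP (n h K : ℕ) (S : Nd) : RP :=
  ⟨ry n K S 0, ry n K S 1, s0 n K S.b.τ 0, s0 n K S.b.τ 1, rz n h K S⟩

theorem toBP_ok {B : Cbx} {r H : ℝ} (h : B.ok (1 / 8) r H) (hr : 0 < r) (hH : 0 ≤ H) : (toBP B).ok r H where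
  n := by simp only [toBP]; rw [neg_sq]; exact Real.sin_sq_add_cos_sq _
  r0 := hr
  r1 := h.r1
  u12 := h.u12
  u2 := h.u2
  α := h.α2
  κ := h.κ2
  H0 := hH
  αH := h.αH
  κH := h.κH

theorem toRP_in {n h K : ℕ} {B : Cbx} {S : Nd} (hS : InB n h K B S) : (toRP n h K S).In (toBP B) (hh n h K) := by
  obtain ⟨h1, h2, h3, h4, h5⟩ := hS
  refine ⟨h1 0, h1 1, h2 0, h2 1, ?_, ?_, ?_⟩
  · simp only [Fin.sum_univ_two] at h3; exact h3
  · simp only [Fin.sum_univ_two, fn, Pi.sub_apply] at h4; exact h4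
  · simp only [Fin.sum_univ_two, fn, Pi.sub_apply] at h5; exact h5

/-- the plank of the node -/
def toPk (S : Nd) : Pk := ⟨S.b.τ, S.b.o, S.w⟩

/-- bound of the time of the point on the hyperplane -/
theorem t_bound {m : RP} {C1 X u x0 x1 : ℝ} (hC : 1 ≤ C1) (hX : 1 ≤ X) (hs0 : |m.s0| ≤ 1) (hs1 : |m.s1| ≤ 1)
    (hy0 : |m.y0| ≤ C1) (hy1 : |m.y1| ≤ C1) (hz : |m.z| ≤ C1) (d0 : |m.e0 x0 (-u / 32)| ≤ X) (d1 : |m.e1 x1 (-u / 32)| ≤ X)
    (d2 : |m.e2 u x0 x1 (-u / 32)| ≤ X) : |-u / 32| ≤ 4 * C1 * X := by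
  have ta := t_aff m u x0 x1
  have hden : (32:ℝ) ≤ 32 + (m.s0 ^ 2 + m.s1 ^ 2) / 2 := by
    have : 0 ≤ (m.s0 ^ 2 + m.s1 ^ 2) / 2 := by positivity
    linarith
  generalize hD : 32 + (m.s0 ^ 2 + m.s1 ^ 2) / 2 = D at *
  generalize m.e0 x0 (-u / 32) = E0 at *
  generalize m.e1 x1 (-u / 32) = E1 at *
  generalize m.e2 u x0 x1 (-u / 32) = E2 at *
  have hD0 : 0 < D := by linarith
  have e : -u / 32 = (-(m.z + (m.y0 * m.s0 + m.y1 * m.s1)) - m.s0 * E0 - m.s1 * E1 - E2) / D := by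
    refine ta.trans ?_
    field_simp
    ring
  rw [e, abs_div, abs_of_pos hD0, div_le_iff₀ hD0]
  have t1 : |m.y0 * m.s0| ≤ C1 * 1 := by rw [abs_mul]; exact mul_le_mul hy0 hs0 (abs_nonneg _) (by linarith)
  have t2 : |m.y1 * m.s1| ≤ C1 * 1 := by rw [abs_mul]; exact mul_le_mul hy1 hs1 (abs_nonneg _) (by linarith)
  have t3 : |m.s0 * E0| ≤ 1 * X := by rw [abs_mul]; exact mul_le_mul hs0 d0 (abs_nonneg _) (by linarith)
  have t4 : |m.s1 * E1| ≤ 1 * X := by rw [abs_mul]; exact mul_le_mul hs1 d1 (abs_nonneg _) (by linarith)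
  have big : C1 * 1 ≤ C1 * X := mul_le_mul_of_nonneg_left hX (by linarith)
  have big2 : 1 * X ≤ C1 * X := mul_le_mul_of_nonneg_right hC (by linarith)
  have sum : |-(m.z + (m.y0 * m.s0 + m.y1 * m.s1)) - m.s0 * E0 - m.s1 * E1 - E2| ≤ 6 * (C1 * X) := by
    rw [abs_le]
    have := abs_le.1 hz
    have := abs_le.1 t1
    have := abs_le.1 t2
    have := abs_le.1 t3
    have := abs_le.1 t4
    have := abs_le.1 d2
    constructor <;> linarith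
  refine sum.trans ?_
  have h0 : 0 ≤ 4 * C1 * X := by nlinarith
  have h1 : 4 * C1 * X * 32 ≤ 4 * C1 * X * D := mul_le_mul_of_nonneg_left hden h0
  linarith

theorem near_of {n h K : ℕ} {C1 : ℝ} (hC : 1 ≤ C1) (hhK : h ≤ K) {S : Nd} (hT : S.b.T = 0) (hcap : Cap n K S.b.τ)
    (ho : ∀ k, |(S.b.o k : ℝ)| ≤ C1 * 2 ^ (K * n)) (hw : |(S.w : ℝ)| * 2 ^ (h * n) ≤ C1 * 2 ^ (2 * K * n)) {y : E3}
    (hy : (toPk S).g0 (h * n) K n (hp y) ≤ 2 ^ n) :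
    Near (4 * C1 * 2 ^ n) ((1 / 2 : ℝ) ^ (K * n)) (hh n h K) (toRP n h K S) (y 2 / 2 ^ (2 * K * n)) (y 0 / 2 ^ (2 * K * n))
      (y 1 / 2 ^ (2 * K * n)) (-(y 2 / 2 ^ (2 * K * n)) / 32) := by
  set Q : ℝ := 2 ^ (K * n) with hQ
  set A : ℝ := 2 ^ (h * n) with hA
  set R : ℝ := 2 ^ (2 * K * n) with hR
  have hQ0 : 0 < Q := by positivity
  have hA0 : 0 < A := by positivity
  have hR0 : 0 < R := by positivity
  have hRQ : R = Q ^ 2 := by rw [hR, hQ, ← pow_mul]; congr 1; ring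
  have hr : (1 / 2 : ℝ) ^ (K * n) = Q⁻¹ := by rw [hQ, one_div, inv_pow]
  have hH : hh n h K = A / R := rfl
  have hq1 : (1:ℝ) ≤ 2 ^ n := one_le_pow₀ (by norm_num)
  have hQ1 : (1:ℝ) ≤ Q := one_le_pow₀ (by norm_num)
  have hAQ : A ≤ Q := by
    rw [hA, hQ]; exact pow_le_pow_right₀ (by norm_num) (Nat.mul_le_mul_right _ hhK)
  have hAR : A / R ≤ 1 := by
    rw [div_le_one hR0, hRQ]; nlinarith
  have hs : ∀ k, |s0 n K S.b.τ k| ≤ 1 := by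
    intro k
    have hk := hcap k
    unfold s0
    rw [abs_div, abs_of_pos (a := (2:ℝ) ^ (K * n)) hQ0, div_le_one hQ0, abs_of_nonneg (by exact_mod_cast hk.1)]
    have : ((S.b.τ k : ℤ) : ℝ) < ((2 ^ (K * n) : ℤ) : ℝ) := by exact_mod_cast hk.2
    push_cast at this
    exact this.le
  -- the gauge
  have hb2 : (pt (2 ^ (h * n)) (2 ^ (K * n)) 0 (slp n K S.b.τ) S.b.o S.w) 2 = 0 := rfl
  unfold Pk.g0 at hy
  have e_nl : nl (slp n K (toPk S).θ) (hp y - pt (2 ^ (h * n)) (2 ^ (K * n)) 0 (slp n K (toPk S).θ) (toPk S).o (toPk S).w) =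
      y 2 - (s0 n K S.b.τ 0 * y 0 + s0 n K S.b.τ 1 * y 1) + (s0 n K S.b.τ 0 ^ 2 + s0 n K S.b.τ 1 ^ 2) / 2 * (-(y 2) / 32) - A * S.w := by
    simp only [nl, hp, pt, toPk, slp, s0, PiLp.sub_apply]
    simp
    ring
  have e_d0 : dv (slp n K (toPk S).θ) (hp y - pt (2 ^ (h * n)) (2 ^ (K * n)) 0 (slp n K (toPk S).θ) (toPk S).o (toPk S).w) 0 =
      y 0 - Q * S.b.o 0 - s0 n K S.b.τ 0 * (-(y 2) / 32) := by
    simp only [dv, hp, pt, toPk, slp, s0, PiLp.sub_apply]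
    simp [hQ]
  have e_d1 : dv (slp n K (toPk S).θ) (hp y - pt (2 ^ (h * n)) (2 ^ (K * n)) 0 (slp n K (toPk S).θ) (toPk S).o (toPk S).w) 1 =
      y 1 - Q * S.b.o 1 - s0 n K S.b.τ 1 * (-(y 2) / 32) := by
    simp only [dv, hp, pt, toPk, slp, s0, PiLp.sub_apply]
    simp [hQ]
  rw [e_nl, e_d0, e_d1] at hy
  set g1 := |y 2 - (s0 n K S.b.τ 0 * y 0 + s0 n K S.b.τ 1 * y 1) + (s0 n K S.b.τ 0 ^ 2 + s0 n K S.b.τ 1 ^ 2) / 2 * (-(y 2) / 32) - A * S.w| with hg1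
  set g2 := |y 0 - Q * S.b.o 0 - s0 n K S.b.τ 0 * (-(y 2) / 32)| with hg2
  set g3 := |y 1 - Q * S.b.o 1 - s0 n K S.b.τ 1 * (-(y 2) / 32)| with hg3
  have n1 : 0 ≤ g1 := abs_nonneg _
  have n2 : 0 ≤ g2 := abs_nonneg _
  have n3 : 0 ≤ g3 := abs_nonneg _
  have b1 : g1 ≤ 2 ^ n * A := by
    rw [← div_le_iff₀ hA0]
    have : 0 ≤ (g2 + g3) / Q := by positivity
    linarith
  have b23 : (g2 + g3) ≤ 2 ^ n * Q := by
    rw [← div_le_iff₀ hQ0]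
    have : 0 ≤ g1 / A := by positivity
    linarith
  -- deviations
  have z_eq : rz n h K S = S.w * A / R := by unfold rz; rw [hT]; simp [hA, hR]
  have y_eq : ∀ k, ry n K S k = Q * S.b.o k / R := by
    intro k; unfold ry
    rw [← hQ, hRQ]; field_simp
  have f0 : (toRP n h K S).e0 (y 0 / R) (-(y 2 / R) / 32) = (y 0 - Q * S.b.o 0 - s0 n K S.b.τ 0 * (-(y 2) / 32)) / R := by
    simp only [RP.e0, toRP, y_eq]; field_simp
  have f1 : (toRP n h K S).e1 (y 1 / R) (-(y 2 / R) / 32) = (y 1 - Q * S.b.o 1 - s0 n K S.b.τ 1 * (-(y 2) / 32)) / R := by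
    simp only [RP.e1, toRP, y_eq]; field_simp
  have f2 : (toRP n h K S).e2 (y 2 / R) (y 0 / R) (y 1 / R) (-(y 2 / R) / 32) =
      (y 2 - (s0 n K S.b.τ 0 * y 0 + s0 n K S.b.τ 1 * y 1) + (s0 n K S.b.τ 0 ^ 2 + s0 n K S.b.τ 1 ^ 2) / 2 * (-(y 2) / 32) - A * S.w) / R := by
    simp only [RP.e2, toRP, z_eq]; field_simp; ring
  have h4 : (2:ℝ) ^ n ≤ 4 * C1 * 2 ^ n := by nlinarith
  have hQR : Q / R = Q⁻¹ := by rw [hRQ]; field_simp
  have c0 : |(toRP n h K S).e0 (y 0 / R) (-(y 2 / R) / 32)| ≤ 2 ^ n * Q⁻¹ := by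
    rw [f0, abs_div, abs_of_pos hR0, ← hg2, ← hQR, ← mul_div_assoc]
    gcongr; linarith
  have c1 : |(toRP n h K S).e1 (y 1 / R) (-(y 2 / R) / 32)| ≤ 2 ^ n * Q⁻¹ := by
    rw [f1, abs_div, abs_of_pos hR0, ← hg3, ← hQR, ← mul_div_assoc]
    gcongr; linarith
  have c2 : |(toRP n h K S).e2 (y 2 / R) (y 0 / R) (y 1 / R) (-(y 2 / R) / 32)| ≤ 2 ^ n * (A / R) := by
    rw [f2, abs_div, abs_of_pos hR0, ← hg1, ← mul_div_assoc]
    gcongr
  refine ⟨?_, ?_, ?_, ?_⟩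
  · rw [hr]; exact c0.trans (mul_le_mul_of_nonneg_right h4 (by positivity))
  · rw [hr]; exact c1.trans (mul_le_mul_of_nonneg_right h4 (by positivity))
  · rw [hH]; exact c2.trans (mul_le_mul_of_nonneg_right h4 (by positivity))
  · -- the time
    have hQi : Q⁻¹ ≤ 1 := inv_le_one_of_one_le₀ hQ1
    have hp : (0:ℝ) < 2 ^ n := by positivity
    refine t_bound hC hq1 (hs 0) (hs 1) ?_ ?_ ?_ (c0.trans ?_) (c1.trans ?_) (c2.trans ?_)
    · show |ry n K S 0| ≤ C1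
      unfold ry; rw [abs_div, abs_of_pos (a := (2:ℝ) ^ (K * n)) hQ0, div_le_iff₀ hQ0]; exact ho 0
    · show |ry n K S 1| ≤ C1
      unfold ry; rw [abs_div, abs_of_pos (a := (2:ℝ) ^ (K * n)) hQ0, div_le_iff₀ hQ0]; exact ho 1
    · show |rz n h K S| ≤ C1
      rw [z_eq, abs_div, abs_of_pos hR0, abs_mul, abs_of_pos hA0, div_le_iff₀ hR0]; exact hw
    · exact mul_le_of_le_one_right hp.le hQi
    · exact mul_le_of_le_one_right hp.le hQi
    · exact mul_le_of_le_one_right hp.le hAR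

end Vale.Agent.P106.W.Vol
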